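import Mathlib.CategoryTheory.Abelian.Projective.Ext
import Mathlib.CategoryTheory.Abelian.Subcategory
import Mathlib.CategoryTheory.Abelian.FunctorCategory
import Mathlib.CategoryTheory.Limits.FunctorCategory.EpiMono
import Mathlib.CategoryTheory.Preadditive.Yoneda.Basic
import Mathlib.Algebra.Category.Grp.Abelian
import Mathlib.Algebra.Category.Grp.Zero

/-!
# Additive functors to abelian groups form an abelian subcategory of all functors
-/

open CategoryTheory Limits

namespace Vale.Agent.Q236

variable (C : Type) [Category.{0} C] [Preadditive C]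

instance containsZero : (additiveFunctor C AddCommGrpCat.{0}).ContainsZero where
  exists_zero := ⟨(Functor.const C).obj (AddCommGrpCat.of PUnit),
    Functor.isZero _ fun _ => AddCommGrpCat.isZero_of_subsingleton (AddCommGrpCat.of PUnit),
    ⟨fun {_ _ _ _} => (AddCommGrpCat.isZero_of_subsingleton (AddCommGrpCat.of PUnit)).eq_of_src _ _⟩⟩

instance closedSub : (additiveFunctor C AddCommGrpCat.{0}).IsClosedUnderSubobjects where
  prop_of_mono {F G} i _ hG := ⟨fun {X Y f g} => by
    have : G.Additive := hG
    rw [← cancel_mono (i.app Y), Preadditive.add_comp, i.naturality, i.naturality, i.naturality,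
      G.map_add, Preadditive.comp_add]⟩

instance closedQuot : (additiveFunctor C AddCommGrpCat.{0}).IsClosedUnderQuotients where
  prop_of_epi {F G} p _ hF := ⟨fun {X Y f g} => by
    have : F.Additive := hF
    rw [← cancel_epi (p.app X), Preadditive.comp_add, ← p.naturality, ← p.naturality,
      ← p.naturality, F.map_add, Preadditive.add_comp]⟩

instance closedProd : (additiveFunctor C AddCommGrpCat.{0}).IsClosedUnderFiniteProducts where
  isClosedUnderLimitsOfShape J _ := ⟨fun F ⟨h⟩ => ⟨fun {X Y f g} =>
    (isLimitOfPreserves ((evaluation _ _).obj Y) h.isLimit).hom_ext fun j => by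
      have : (h.diag.obj j).Additive := h.prop_diag_obj j
      let p : F ⟶ h.diag.obj j := h.π.app j
      change _ ≫ p.app Y = _ ≫ p.app Y
      rw [Preadditive.add_comp, p.naturality, p.naturality, p.naturality, Functor.map_add,
        Preadditive.comp_add]⟩⟩


end Vale.Agent.Q236
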