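import Vale.Agent.Q236.Defs
import Vale.Agent.P251.M.Conn

/-!
# P236, literal `Ext`: the notions used in the proofs
-/

open CategoryTheory MonoidalCategory MonObj Limits Opposite

namespace Vale.Agent.Q236

open Vale.Agent.P251.St Vale.Agent.P251.St.SHCat Vale.Agent.P236Z.St Vale.Agent.P236K.St

variable {T : SHCat}

/-- bounded below and of finite type -/
def FT (Y : T.C) : Prop :=
  (∃ n : ℤ, P251.M.Conn n Y) ∧ ∀ k : ℤ, Finite (sph T k ⟶ Y)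

/-- a locally finite, bounded below wedge of suspensions of `H` -/
def Fr (H Q : T.C) : Prop :=
  ∃ (J : Type) (n : J → ℤ) (i : ∀ j, H⟦n j⟧ ⟶ Q), IsIso (Sigma.desc i) ∧
    ∀ k : ℤ, {j | n j ≤ k}.Finite

/-- no operations of negative degree -/
def Neg (H : T.C) : Prop := ∀ k l : ℤ, k < l → ∀ f : H⟦l⟧ ⟶ H⟦k⟧, f = 0

/-- the cohomology of `S^l` is concentrated in degree `l` -/
def Conc (H : T.C) : Prop := ∀ k l : ℤ, k ≠ l → ∀ f : sph T l ⟶ H⟦k⟧, f = 0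

/-- the cohomology of `K` is an exact sequence `⋯ ⟶ H^* (Q 1) ⟶ H^* (Q 0) ⟶ H^* S ⟶ 0` -/
structure Ex (H : T.C) (K : Cx T) : Prop where
  e_δ : K.e ≫ K.δ 0 = 0
  sq : ∀ n, K.δ n ≫ K.δ (n + 1) = 0
  surj : ∀ (k : ℤ) (f : T.one ⟶ H⟦k⟧), ∃ g : K.Q 0 ⟶ H⟦k⟧, K.e ≫ g = f
  ex₀ : ∀ (k : ℤ) (f : K.Q 0 ⟶ H⟦k⟧), K.e ≫ f = 0 → ∃ g, K.δ 0 ≫ g = f
  ex : ∀ (n : ℕ) (k : ℤ) (f : K.Q (n + 1) ⟶ H⟦k⟧), K.δ n ≫ f = 0 → ∃ g, K.δ (n + 1) ≫ g = f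

/-- row B1 -/
def RowB1 : Prop := ∀ (T : SHCat) (H : T.C), Neg H → Conc H → ∀ K : Cx T,
  (∀ n, Fr H (K.Q n)) → Ex H K → Computes H K

/-- row B2 -/
def RowB2 : Prop := ∀ (T : SHCat) (H : T.C), Neg H → ∀ K K' : Cx T,
  (∀ n, Fr H (K'.Q n)) → Ex H K' → ∀ p : ∀ n, K.Q n ⟶ K'.Q n, K.e ≫ p 0 = K'.e →
  (∀ n, K.δ n ≫ p (n + 1) = p n ≫ K'.δ n) →
  ∀ (s : ℕ) (t : ℤ) (z : sph T t ⟶ K.Q s) (x : ExtA H s t), Cls H K z x → Cls H K' (z ≫ p s) x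

/-- row D1 -/
def RowD1 : Prop := ∀ (T : SHCat) (H : T.C) [MonObj H], IsHF 3 η[H] → ∀ Y : T.C,
  FT (H ⊗ Y) → Fr H (H ⊗ Y)

/-- row D2 -/
def RowD2 : Prop := ∀ (T : SHCat) (H : T.C) [MonObj H], IsHF 3 η[H] → ∀ Y Y' : T.C,
  FT (H ⊗ Y) → FT (H ⊗ Y') → FT (H ⊗ (Y ⊗ Y'))

/-- row D3 -/
def RowD3 : Prop := ∀ (T : SHCat) (H : T.C) [MonObj H], IsHF 3 η[H] → FT (H ⊗ H) → Dual H

/-- row K1 -/
def RowK1 : Prop := ∀ (T : SHCat) (H : T.C) [MonObj H], IsHF 3 η[H] → Kun H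

/-- row K2 -/
def RowK2 : Prop := ∀ (T : SHCat) (H : T.C) [MonObj H] [IsCommMonObj H] (ξ : sph T 4 ⟶ H ⊗ H)
  (j : ℕ), bj ξ j = cob ξ j

end Vale.Agent.Q236
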