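import Vale.Agent.Q236.Base
import Vale.Agent.P251.S.Amitsur

/-!
# P236, literal `Ext`: the two descriptions of the cochain `b_j` agree (row K2)
-/

open CategoryTheory MonoidalCategory MonObj Limits Opposite

namespace Vale.Agent.Q236

open Vale.Agent.P251.St Vale.Agent.P251.St.SHCat Vale.Agent.P236Z.St Vale.Agent.P236K.St
open Vale.Agent.P251.S

section general

variable {C : Type*} [Category C] [MonoidalCategory C] [SymmetricCategory C]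

lemma inlM_br (H : C) [MonObj H] :
    inlM (H ⊗ H) (H ⊗ H) ≫ (α_ H H (H ⊗ H)).hom ≫ H ◁ ((α_ H H H).inv ≫ μ[H] ▷ H) =
      H ◁ inlM H H := by
  change ((ρ_ (H ⊗ H)).inv ≫ (H ⊗ H) ◁ ((λ_ (𝟙_ C)).inv ≫ (η[H] ⊗ₘ η[H]))) ≫ _ =
    H ◁ ((ρ_ H).inv ≫ H ◁ η[H])
  calc _ = H ◁ ((ρ_ H).inv ≫ H ◁ η[H] ≫ ((ρ_ H).inv ≫ H ◁ η[H] ≫ μ[H]) ▷ H) := by
        rw [tensorHom_def']
        monoidal
    _ = _ := by rw [MonObj.mul_one, Iso.inv_hom_id, id_whiskerRight, Category.comp_id]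

lemma inrM_br (H : C) [MonObj H] :
    inrM (H ⊗ H) (H ⊗ H) ≫ (α_ H H (H ⊗ H)).hom ≫ H ◁ ((α_ H H H).inv ≫ μ[H] ▷ H) =
      inrM H (H ⊗ H) := by
  change ((λ_ (H ⊗ H)).inv ≫ ((λ_ (𝟙_ C)).inv ≫ (η[H] ⊗ₘ η[H])) ▷ (H ⊗ H)) ≫ _ =
    (λ_ (H ⊗ H)).inv ≫ η[H] ▷ (H ⊗ H)
  calc _ = (λ_ (H ⊗ H)).inv ≫ η[H] ▷ (H ⊗ H) ≫
        H ◁ (((λ_ H).inv ≫ η[H] ▷ H ≫ μ[H]) ▷ H) := by
        rw [tensorHom_def]
        monoidal
    _ = _ := by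
        rw [MonObj.one_mul, Iso.inv_hom_id, id_whiskerRight, whiskerLeft_id, Category.comp_id]

lemma mul_br (H : C) [MonObj H] [IsCommMonObj H] :
    (α_ H H (H ⊗ H)).hom ≫ H ◁ ((α_ H H H).inv ≫ μ[H] ▷ H) =
      (H ◁ inlM H H ⊗ₘ inrM H (H ⊗ H)) ≫ μ[H ⊗ (H ⊗ H)] := by
  rw [eq_descM ((α_ H H (H ⊗ H)).hom ≫ H ◁ ((α_ H H H).inv ≫ μ[H] ▷ H)), inlM_br, inrM_br, descM]

end general

variable {T : SHCat}

lemma mul3_comp {R R' A : T.C} [MonObj R] [MonObj R'] (x y z : A ⟶ R) (f : R ⟶ R') [IsMonHom f] :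
    mul3 (x ≫ f) (y ≫ f) (z ≫ f) = mul3 x y z ≫ f := by
  simp only [mul3, Category.assoc, IsMonHom.mul_hom, tensorHom_comp_tensorHom_assoc,
    Category.comp_id]

lemma mul3_eq {R A : T.C} [MonObj R] (x y z : A ⟶ R) :
    mul3 x y z = (α_ A A A).inv ≫ ((x ⊗ₘ y) ≫ μ[R] ⊗ₘ z) ≫ μ[R] := by
  change (x ⊗ₘ (y ⊗ₘ z)) ≫ (𝟙 R ⊗ₘ μ[R]) ≫ μ[R] = _
  rw [id_tensorHom, MonObj.mul_assoc_flip, associator_inv_naturality_assoc, ← tensorHom_id,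
    tensorHom_comp_tensorHom_assoc, Category.comp_id]

lemma frob_comp {R R' : T.C} [MonObj R] [MonObj R'] (x : sph T 4 ⟶ R) (f : R ⟶ R') [IsMonHom f] :
    ∀ j : ℕ, frob (x ≫ f) j = frob x j ≫ f
  | 0 => rfl
  | j + 1 => by
    change mul3 (frob (x ≫ f) j) (frob (x ≫ f) j) (frob (x ≫ f) j) =
      mul3 (frob x j) (frob x j) (frob x j) ≫ f
    rw [frob_comp x f j, mul3_comp]

lemma br_eq_mul {H P Q : T.C} [MonObj H] [IsCommMonObj H] (a : P ⟶ H ⊗ H) (z : Q ⟶ H ⊗ H) :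
    br a z = (a ≫ H ◁ inlM H H ⊗ₘ z ≫ inrM H (H ⊗ H)) ≫ μ[H ⊗ (H ⊗ H)] := by
  rw [← tensorHom_comp_tensorHom, Category.assoc, ← mul_br, ← id_tensorHom, ← tensorHom_id]
  rfl

theorem rowK2 : RowK2 := by
  intro T H _ _ ξ j
  have hL : tenHom (ident H) (comp (ρ_ H).inv (tenHom (ident H) η[H])) = H ◁ inlM H H := by
    rw [inlM, ← id_tensorHom, ← id_tensorHom]
  have hR : hur η[H] (ten H H) = inrM H (H ⊗ H) := by
    rw [inrM, ← tensorHom_id]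
  simp only [bj, cob, hL, hR, br_eq_mul, frob_comp]
  congr 1
  · simp only [mul3, Category.assoc, IsMonHom.mul_hom, tensorHom_comp_tensorHom_assoc,
      Category.comp_id]
  · simp only [mul3_eq, Category.assoc, IsMonHom.mul_hom, tensorHom_comp_tensorHom_assoc]

end Vale.Agent.Q236
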