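import Vale.Agent.Q236.Glue

/-!
# P236, literal `Ext`: the final statement in terms of the definitions of `Q236/Sm`
-/

open CategoryTheory MonoidalCategory MonObj Opposite

namespace Vale.Agent.R236

open P251.St P251.St.SHCat P236Z.St

theorem isCls_iff {B : Type 1} [Category.{0} B] {A : Type 1} [Category.{0} A] [Abelian A]
    [HasExt.{1} A] (F : Bᵒᵖ ⥤ A) {S P : B} {W : ℕ → B} (u : S ⟶ W 0) (v : ∀ n, W n ⟶ W (n + 1))
    (s : ℕ) (z : P ⟶ W s) (x : Abelian.Ext (F.obj (op S)) (F.obj (op P)) s) :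
    IsCls F u v s z x ↔
      ∃ (R : ProjectiveResolution (F.obj (op S))) (i : ∀ n, R.complex.X n ≅ F.obj (op (W n))),
        R.π.f 0 = (i 0).hom ≫ F.map u.op ∧
        (∀ n, R.complex.d (n + 1) n ≫ (i n).hom = (i (n + 1)).hom ≫ F.map (v n).op) ∧
        ∃ h, x = R.extMk ((i s).hom ≫ F.map z.op) (s + 1) rfl h :=
  ⟨fun ⟨R, i, h₁, h₂, h⟩ => ⟨R, i, h₁, h₂, h, rfl⟩,
    fun ⟨R, i, h₁, h₂, h, hx⟩ => hx ▸ ⟨R, i, h₁, h₂, h⟩⟩

variable {T : SHCat} {H : T.C}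

theorem cls_iff (K : Cx T.one) (s : ℕ) (t : ℤ) (z : sph T t ⟶ K.Q s)
    (x : ExtA (Sh H) T.one (sph T t) s) :
    Cls (Sh H) K s z x ↔ Q236.Cls H ⟨K.Q, K.ε, K.δ⟩ z x :=
  isCls_iff _ _ _ _ _ _

theorem computes_of (K : Cx T.one) (h : Q236.Computes H ⟨K.Q, K.ε, K.δ⟩) (t : ℤ) :
    Computes (Sh H) K (sph T t) where
  cls s z := (exists_congr fun x => cls_iff K s t z x).trans (h.cls s t z)
  uniq s z x x' hx hx' := h.uniq s t z x x' ((cls_iff K s t z x).1 hx) ((cls_iff K s t z x').1 hx')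
  surj s x := (h.surj s t x).imp fun z => (cls_iff K s t z x).2
  add s z z' x x' hx hx' := (cls_iff K s t _ _).2
    (h.add s t z z' x x' ((cls_iff K s t z x).1 hx) ((cls_iff K s t z' x').1 hx'))
  ker₀ z := (cls_iff K 0 t z 0).trans (h.ker₀ t z)
  ker s z := (cls_iff K (s + 1) t z 0).trans (h.ker s t z)

theorem rep_iff {u : T.one ⟶ H} (A : AdamsTower u) {n t : ℤ} (z : sph T n ⟶ H ⊗ A.X 2)
    (x : ExtA (Sh H) T.one (sph T t) 2) : Rep A z x ↔ Q236.Rep A z x :=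
  exists_congr fun _ => cls_iff (adams A) 2 t _ x

variable [MonObj H]

theorem lin_one (A : AddCommGrpCat.{0}) (f g : A) : lin A f 1 g = f + g := by
  rw [lin, one_smul]

theorem br_eq {P W Y : T.C} (a : P ⟶ H ⊗ H) (z : W ⟶ H ⊗ Y) : Q236.br a z = br a z := by
  rw [br, ← id_tensorHom, ← tensorHom_id]
  rfl

theorem bj_eq (ξ : sph T 4 ⟶ H ⊗ H) (j : ℕ) : Q236.bj ξ j = bj (P236K.St.frob ξ j) := by
  simp only [Q236.bj, br_eq]
  exact (lin_one (grp _ _) _ _).symm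

theorem big_eq {R : T.C} [MonObj R] (x : Hom (sph T 4) R) : ∀ j,
    (⟨bigS T j, frob x j⟩ : Σ X : T.C, Hom X R) = ⟨P236K.St.bigS T j, P236K.St.frob x j⟩
  | 0 => rfl
  | j + 1 => congrArg (fun p : Σ X : T.C, Hom X R =>
      (⟨ten p.1 (ten p.1 p.1), P236K.St.mul3 p.2 p.2 p.2⟩ : Σ X : T.C, Hom X R)) (big_eq x j)

theorem big_ind {R : T.C} [MonObj R] (x : Hom (sph T 4) R) (j : ℕ)
    (Φ : ∀ X : T.C, Hom X R → Prop) (h : Φ _ (P236K.St.frob x j)) : Φ _ (frob x j) :=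
  (congrArg (fun p : Σ X : T.C, Hom X R => Φ p.1 p.2) (big_eq x j)).mpr h

omit [MonObj H] in
theorem detects_of {u : T.one ⟶ H} (A : AdamsTower u) {n : ℤ} {z : sph T n ⟶ H ⊗ A.X 2}
    {θ : sph T n ⟶ T.one} (h : P236K.St.Detects A z θ) : Detects A z θ := by
  obtain ⟨h1, w, c, hc, hw, hb⟩ := h
  refine ⟨h1, w, -c, by rwa [dvd_neg], hw, ?_⟩
  rw [sub_eq_add_neg, ← neg_smul] at hb
  exact hb

theorem Cmp.three {C : ℕ → AddCommGrpCat.{0}} {d : ∀ n, C n → C (n + 1)}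
    {E : ℕ → AddCommGrpCat.{1}} {c : ∀ s, C s → E s → Prop} (h : Cmp d E c) {s : ℕ}
    {z : C (s + 1)} {x : E (s + 1)} (hx : c _ z x) (h0 : d s 0 = 0) (hz : 3 • z = 0) (hx0 : x ≠ 0) :
    ord _ x = 3 := by
  have : Fact (Nat.Prime 3) := ⟨Nat.prime_three⟩
  have h1 := h.add _ _ _ _ _ (h.add _ _ _ _ _ hx hx) hx
  rw [← two_nsmul, ← succ_nsmul, hz, ← two_nsmul, ← succ_nsmul] at h1
  exact addOrderOf_eq_prime (h.uniq _ _ _ _ h1 ((h.ker s 0).2 ⟨0, h0⟩)) hx0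

theorem dual_of (h : Q236.Dual H) (t : ℤ) : Dual H (sph T t) :=
  ⟨(h t).1, fun φ => by
    have h1 := (h t).2 φ
    simp only [Q236.pair, comp, tenHom, ident, id_tensorHom, tensorHom_id] at h1
    exact h1⟩

theorem kun_of (h : Q236.Kun H) (t : ℤ) : Kun H (sph T) t :=
  ⟨(h t).1, fun c Y M β => by
    have h1 := (h t).2 c Y M β
    simp only [br_eq] at h1
    exact h1⟩

theorem card_three {V : Type} [AddCommGroup V] (h : ∀ v : V, 3 • v = 0)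
    (h' : ∃ ξ : V, ξ ≠ 0 ∧ ∀ g : V, ∃ m : ℤ, g = m • ξ) : Nat.card V = 3 := by
  obtain ⟨ξ, h0, hξ⟩ := h'
  have h1 : AddSubgroup.zmultiples ξ = ⊤ := eq_top_iff.2 fun g _ => by
    obtain ⟨m, rfl⟩ := hξ g
    exact ⟨m, rfl⟩
  have : Fact (Nat.Prime 3) := ⟨Nat.prime_three⟩
  rw [← addOrderOf_eq_prime (h ξ) h0, ← Nat.card_zmultiples, h1, AddSubgroup.card_top]

/-- the final statement -/
def FIN : Prop :=
  ∀ (T : SHCat) (_ : Susp T),
    (∃ (H : T.C) (_ : MonObj H) (_ : IsCommMonObj H), IsHF 3 η[H]) ∧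
    ∀ (H : T.C) [MonObj H] [IsCommMonObj H],
      let u : Hom T.one H := η; let G := Sh H; let K : Cx T.one := cobar H; IsHF 3 u →
      (∀ t, (∀ k, Nat.card (Hom (sph T t) (G k)) = if k = t then 3 else 1) ∧
        Dual H (sph T t) ∧ Kun H (sph T) t ∧ Computes G K (sph T t) ∧
        ∀ A : AdamsTower u, Computes G (adams A) (sph T t)) ∧ Nonempty (AdamsTower u) ∧
      Nat.card (Hom (sph T 4) (ten H H)) = 3 ∧
      ∀ ξ : Hom (sph T 4) (ten H H), ord (grp _ _) ξ = 3 → ∀ j : ℕ,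
        let t : ℤ := 4 * 3 ^ (j + 1); let P := sph T t; let E := ExtA G T.one P 2; let n := t - 2
        Nonempty (P ≅ bigS T (j + 1)) ∧ ∀ c : P ≅ bigS T (j + 1), ∃ b : E,
          Cls G K 2 (comp c.hom (bj (frob ξ j) :)) b ∧ ord E b = 3 ∧
          ∀ A : AdamsTower u, (∃ z : Hom (sph T n) (ten H (A.X 2)), Rep A z b) ∧
            ∀ z : Hom (sph T n) (ten H (A.X 2)), Rep A z b → ¬ A.IsBoundary 2 z ∧
              (A.IsPermCycle 2 z ↔ j = 0 ∨ j = 2 ∨ j = 3) ∧ (A.IsPermCycle 2 z →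
                ∃ θ : Hom (sph T n) T.one, ord (grp _ _) θ = 3 ∧ Detects A z θ)

theorem fin_of (h : Q236.FIN) : FIN := by
  intro T S
  refine ⟨(h T S).1, fun H _ _ hH => ?_⟩
  obtain ⟨h1, h2, h3, h4, h5, h6, h7, h8⟩ := (h T S).2 H hH
  refine ⟨fun t => ⟨h1 t, dual_of h2 t, kun_of h3 t, computes_of (cobar H) h4 t,
    fun A => computes_of (adams A) (h6 A) t⟩, h5, card_three (Q236.Free.three_smul hH) h7,
    fun ξ hξ j => ?_⟩
  have h0 : ξ ≠ 0 := by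
    rintro rfl
    exact absurd ((addOrderOf_zero (G := grp (sph T 4) (ten H H))).symm.trans hξ) (by decide)
  intro t P E n
  refine big_ind ξ j (fun X a => Nonempty (P ≅ ten X (ten X X)) ∧
    ∀ c : P ≅ ten X (ten X X), ∃ b : E,
      Cls (Sh H) (cobar H) 2 (comp c.hom (bj a)) b ∧ ord E b = 3 ∧
        ∀ A : AdamsTower η[H], (∃ z : Hom (sph T n) (ten H (A.X 2)), Rep A z b) ∧
          ∀ z : Hom (sph T n) (ten H (A.X 2)), Rep A z b → ¬ A.IsBoundary 2 z ∧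
            (A.IsPermCycle 2 z ↔ j = 0 ∨ j = 2 ∨ j = 3) ∧ (A.IsPermCycle 2 z →
              ∃ θ : Hom (sph T n) T.one, ord (grp _ _) θ = 3 ∧ Detects A z θ))
    ⟨(h8 ξ h0 j).1, fun c => ?_⟩
  obtain ⟨b, hb, hb0, hb'⟩ := (h8 ξ h0 j).2 c
  rw [bj_eq] at hb
  have hb1 := (cls_iff (cobar H) 2 _ _ b).2 hb
  refine ⟨b, hb1, (computes_of (cobar H) h4 _).three hb1 Limits.zero_comp
    (Q236.Free.three_smul hH _) hb0, fun A =>
    ⟨(hb' A).1.imp fun z => (rep_iff A z b).2, fun z hz => ?_⟩⟩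
  obtain ⟨k1, k2, k3⟩ := (hb' A).2 z ((rep_iff A z b).1 hz)
  exact ⟨k1, (and_iff_left k1).symm.trans k2, fun hp =>
    (k3 ⟨hp, k1⟩).imp fun θ hθ => ⟨hθ.1, detects_of A hθ.2⟩⟩

end Vale.Agent.R236
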