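import Vale.Agent.Q236.Sm
import Vale.Agent.P236K.St.Defs

/-!
# P236: working copies of the definitions of `Q236/Sm`, specialised to `T` (not in the statement)

`H` is the mod three Eilenberg-Mac Lane spectrum.  The Steenrod algebra is the graded ring of stable
operations `A^n = [H, Σ^n H]`, seen as the preadditive category with objects `k ∈ ℤ` and morphisms
`[Σ^k H, Σ^l H] = A^(l - k)`; graded left `A`-modules are the additive functors on this category.
-/

open CategoryTheory MonoidalCategory MonObj Limits Opposite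

namespace Vale.Agent.Q236

instance hasExt (C : Type) [Category.{0} C] [Preadditive C] :
    HasExt.{1} (AdditiveFunctor C AddCommGrpCat.{0}) := HasExt.standard _

open Vale.Agent.P251.St Vale.Agent.P251.St.SHCat Vale.Agent.P236Z.St Vale.Agent.P236K.St

variable {T : SHCat}

/-- The Steenrod algebra: objects `k ∈ ℤ`, morphisms `[Σ^k H, Σ^l H] = A^(l - k)`. -/
abbrev Ste (H : T.C) : Type := InducedCategory T.C fun k : ℤ => H⟦k⟧

/-- Graded left modules over the Steenrod algebra. -/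
abbrev GMod (H : T.C) : Type 1 := AdditiveFunctor (Ste H) AddCommGrpCat.{0}

/-- Cohomology `X ↦ H^* X`, `H^k X = [X, Σ^k H]`, as a module over the Steenrod algebra. -/
noncomputable def coh (H : T.C) : T.Cᵒᵖ ⥤ GMod H :=
  ObjectProperty.lift _
    (preadditiveCoyoneda ⋙ (Functor.whiskeringLeft _ _ _).obj (inducedFunctor _)) fun X =>
      inferInstanceAs (inducedFunctor _ ⋙ preadditiveCoyoneda.obj X).Additive

/-- `Ext_A^{s,t} (F_3, F_3) = Ext_A^s (H^* S^0, H^* S^t)`. -/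
abbrev ExtA (H : T.C) (s : ℕ) (t : ℤ) : Type 1 :=
  Abelian.Ext.{1} ((coh H).obj (op T.one)) ((coh H).obj (op (sph T t))) s

/-- A sequence of spectra `S ⟶ Q 0 ⟶ Q 1 ⟶ ⋯`. -/
structure Cx (T : SHCat) where
  /-- the terms -/
  Q : ℕ → T.C
  /-- the augmentation -/
  e : Hom T.one (Q 0)
  /-- the differentials -/
  δ : ∀ n, Hom (Q n) (Q (n + 1))

/-- The cohomology of `S ⟶ Q 0 ⟶ Q 1 ⟶ ⋯` is a projective resolution of `H^* S`, and `x` is the
class in `Ext` of the cocycle `H^* (Q s) ⟶ H^* S^t` induced by `z ∈ π_t (Q s)`. -/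
def Cls (H : T.C) (K : Cx T) {s : ℕ} {t : ℤ} (z : Hom (sph T t) (K.Q s)) (x : ExtA H s t) : Prop :=
  ∃ (R : ProjectiveResolution ((coh H).obj (op T.one)))
    (i : ∀ n, R.complex.X n ≅ (coh H).obj (op (K.Q n))),
    R.π.f 0 = (i 0).hom ≫ (coh H).map K.e.op ∧
    (∀ n, R.complex.d (n + 1) n ≫ (i n).hom = (i (n + 1)).hom ≫ (coh H).map (K.δ n).op) ∧
    ∃ h, x = R.extMk ((i s).hom ≫ (coh H).map z.op) (s + 1) rfl h

/-- `Cls` identifies the cohomology of the complex `π_t (Q 0) ⟶ π_t (Q 1) ⟶ ⋯` with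
`Ext_A^{*,t} (F_3, F_3)`. -/
structure Computes (H : T.C) (K : Cx T) : Prop where
  sq : ∀ n, comp (K.δ n) (K.δ (n + 1)) = 0
  cls : ∀ s t (z : Hom (sph T t) (K.Q s)), (∃ x, Cls H K z x) ↔ comp z (K.δ s) = 0
  uniq : ∀ s t (z : Hom (sph T t) (K.Q s)) x x', Cls H K z x → Cls H K z x' → x = x'
  surj : ∀ s t (x : ExtA H s t), ∃ z, Cls H K z x
  add : ∀ s t (z z' : Hom (sph T t) (K.Q s)) x x', Cls H K z x → Cls H K z' x' →
    Cls H K (z + z') (x + x')
  ker₀ : ∀ t (z : Hom (sph T t) (K.Q 0)), Cls H K z 0 ↔ z = 0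
  ker : ∀ s t (z : Hom (sph T t) (K.Q (s + 1))), Cls H K z 0 ↔ ∃ y, comp y (K.δ s) = z

/-- the smash powers `H`, `H ∧ H`, `H ∧ H ∧ H`, … -/
def pw (H : T.C) : ℕ → T.C := Nat.rec H fun _ Y => H ⊗ Y

/-- the alternating sum of the maps `pw H n ⟶ pw H (n + 1)` which insert the unit -/
noncomputable def cod (H : T.C) [MonObj H] : ∀ n, Hom (pw H n) (ten H (pw H n)) :=
  (R236.cobar H).δ

/-- The cobar complex of the dual Steenrod algebra `π_* (H ∧ H)`. -/
noncomputable def cobar (H : T.C) [MonObj H] : Cx T := ⟨pw H, η[H], cod H⟩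

/-- The pairing of `a ∈ π_t (H ∧ H)` with an operation `α ∈ A^t = [H, H ∧ S^t]`; its values lie
in `[S^t, H ∧ S^t] = F_3`. -/
def pair {H : T.C} [MonObj H] {t : ℤ} (a : Hom (sph T t) (ten H H))
    (α : Hom H (ten H (sph T t))) : Hom (sph T t) (ten H (sph T t)) :=
  comp a (comp (tenHom (ident H) α)
    (comp (α_ H H (sph T t)).inv (tenHom μ[H] (ident (sph T t)))))

/-- `π_t (H ∧ H)` is finite and `A^t` is its dual. -/
def Dual (H : T.C) [MonObj H] : Prop :=
  ∀ t : ℤ, Finite (Hom (sph T t) (ten H H)) ∧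
    ∀ φ : Hom (sph T t) (ten H H) →+ Hom (sph T t) (ten H (sph T t)),
      ∃! α : Hom H (ten H (sph T t)), ∀ a, φ a = pair a α

/-- the product `[a | z]` in `H ∧ H ∧ Y` of `a` in `H ∧ H` and `z` in `H ∧ Y` -/
def br {H P Q Y : T.C} [MonObj H] (a : Hom P (ten H H)) (z : Hom Q (ten H Y)) :
    Hom (ten P Q) (ten H (ten H Y)) :=
  comp (tenHom a z) (comp (assoc H H (ten H Y))
    (tenHom (ident H) (comp (α_ H H Y).inv (tenHom μ[H] (ident Y)))))

/-- The products `[a | z]` identify `π_t (H ∧ H ∧ Y)` with the direct sum of the tensor products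
`π_m (H ∧ H) ⊗ π_(t - m) (H ∧ Y)` (universal property). -/
def Kun (H : T.C) [MonObj H] : Prop :=
  ∀ t : ℤ, Nonempty (∀ m : ℤ, sph T t ≅ ten (sph T m) (sph T (t - m))) ∧
    ∀ (c : ∀ m : ℤ, sph T t ≅ ten (sph T m) (sph T (t - m))) (Y : T.C) (M : Type) [AddCommGroup M]
      (β : ∀ m : ℤ, Hom (sph T m) (ten H H) →+ Hom (sph T (t - m)) (ten H Y) →+ M),
      ∃! φ : Hom (sph T t) (ten H (ten H Y)) →+ M, ∀ m a z, φ (comp (c m).hom (br a z)) = β m a z

/-- The cobar cochain `[a | a ^ 2] + [a ^ 2 | a]`, `a = ξ ^ (3 ^ j)`. -/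
noncomputable def bj {H : T.C} [MonObj H] (ξ : Hom (sph T 4) (ten H H)) (j : ℕ) :
    Hom (bigS T (j + 1)) (ten H (ten H H)) :=
  let a := frob ξ j
  let a₂ := comp (tenHom a a) μ[ten H H]
  br a a₂ + comp (α_ _ _ _).inv (br a₂ a)

/-- the iterated suspension -/
def susn (T : SHCat) : ℕ → T.C ⥤ T.C := R236.itr (shiftFunctor T.C (1 : ℤ))

variable {H : T.C} {e : Hom T.one H} (A : AdamsTower e)

/-- The complex `(E_1, d_1)` of the Adams tower: `E_1^{s,t} = π_t Σ^s (H ∧ X s)`. -/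
def adams : Cx T :=
  ⟨fun n => (susn T n).obj (ten H (A.X n)), comp A.base.inv (hur e (A.X 0)),
    fun n => (susn T n).map (comp (A.d n) ((hur e (A.X (n + 1)))⟦(1 : ℤ)⟧'))⟩

/-- `z ∈ π_n (H ∧ X 2)` represents the class `x ∈ Ext^{2,t} = E_2^{2,t}` (the identification `c` of
spheres is unique up to sign). -/
def Rep {n t : ℤ} (z : Hom (sph T n) (ten H (A.X 2))) (x : ExtA H 2 t) : Prop :=
  ∃ c : sph T t ≅ sus (sus (sph T n)),
    Cls H (adams A) (s := 2) (comp c.hom ((z⟦(1 : ℤ)⟧')⟦(1 : ℤ)⟧')) x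

end Vale.Agent.Q236
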