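import Vale.Agent.Q236.FT

/-!
# P236, literal `Ext`: exactness of the bar resolution and of the Adams resolution, and the chain
map between them
-/

open CategoryTheory MonoidalCategory MonObj Limits Pretriangulated

set_option backward.isDefEq.respectTransparency false

namespace Vale.Agent.Q236

open Vale.Agent.P251.St Vale.Agent.P251.St.SHCat Vale.Agent.P236Z.St Vale.Agent.P236K.St
  Vale.Agent.P251.M

variable {T : SHCat} {H : T.C}

section basic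

variable {e : T.one ⟶ H}

/-- the Hurewicz map -/
def un (e : T.one ⟶ H) (X : T.C) : X ⟶ H ⊗ X := (λ_ X).inv ≫ e ▷ X

theorem hur_un (X : T.C) : hur e X = un e X := by
  rw [un, ← tensorHom_id]

@[reassoc]
theorem un_nat {X Y : T.C} (f : X ⟶ Y) : un e X ≫ H ◁ f = f ≫ un e Y := by
  simp only [un, Category.assoc]
  rw [← whisker_exchange, leftUnitor_inv_naturality_assoc]

theorem un_step {W Y K : T.C} (c : Y ⟶ H ⊗ W) (a : W ⟶ Y) (f : Y ⟶ K) (h : a ≫ f = 0) :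
    (un e Y - c ≫ H ◁ a) ≫ H ◁ f = f ≫ un e K := by
  rw [Preadditive.sub_comp, un_nat, Category.assoc, ← MonoidalCategory.whiskerLeft_comp, h,
    MonoidalPreadditive.whiskerLeft_zero, comp_zero, sub_zero]

theorem exch_eq' (Y : T.C) : exch H Y = (tensorShiftOne H Y).hom := by
  simp [exch, tensorShiftOne]

instance (Y : T.C) : IsIso (exch H Y) := by
  rw [exch_eq']
  infer_instance

@[reassoc]
theorem un_exch (Y : T.C) : un e (Y⟦(1 : ℤ)⟧) ≫ exch H Y = (un e Y)⟦(1 : ℤ)⟧' := by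
  have h1 : un e (Y ⊗ sus T.one) ≫ (α_ H Y (sus T.one)).inv = un e Y ▷ sus T.one := by
    simp only [un]
    monoidal
  simp only [exch, comp, tenHom, ident, id_tensorHom, tenSus]
  rw [un_nat_assoc, reassoc_of% h1, T.tensor.e_naturality, Iso.inv_hom_id_assoc]

theorem conc (hH : IsHF 3 e) : Conc H := fun k l h f => by
  let c : sph T l ≅ (sph T (l - k))⟦k⟧ := (shiftFunctorAdd' T.C (l - k) k l (by omega)).app _
  obtain ⟨a, ha⟩ := (shiftFunctor T.C k).map_surjective (c.inv ≫ f)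
  rw [← cancel_epi c.inv, ← ha, hH.conc _ (by omega) a, Functor.map_zero, comp_zero]

theorem zero_of_cell {K : T.C} {n : ℤ} (hK : ∀ m : ℤ, n ≤ m → ∀ g : sph T m ⟶ K, g = 0)
    {Z : T.C} (hZ : BigCell T.C n Z) (f : Z ⟶ K) : f = 0 := by
  induction hZ with
  | sphere k hk => exact hK k hk f
  | coprod X _ ih => exact Sigma.hom_ext _ _ fun i => (ih i _).trans comp_zero.symm
  | ext Δ hΔ _ _ ih₁ ih₃ =>
    obtain ⟨g, hg⟩ := Triangle.yoneda_exact₂ Δ hΔ f (ih₁ _)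
    rw [hg, ih₃ g, comp_zero]

theorem neg (hH : IsHF 3 e) (hc : BigCell T.C 0 H) : Neg H := fun k l h f =>
  zero_of_cell (fun m hm g => conc hH k m (by omega) g) (hc.shift l l (zero_add l)) f

instance susn_full : ∀ n, (susn T n).Full
  | 0 => inferInstanceAs (𝟭 T.C).Full
  | n + 1 => have := susn_full n
    inferInstanceAs (shiftFunctor T.C (1 : ℤ) ⋙ susn T n).Full

instance susn_faithful : ∀ n, (susn T n).Faithful
  | 0 => inferInstanceAs (𝟭 T.C).Faithful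
  | n + 1 => have := susn_faithful n
    inferInstanceAs (shiftFunctor T.C (1 : ℤ) ⋙ susn T n).Faithful

instance susn_additive : ∀ n, (susn T n).Additive
  | 0 => inferInstanceAs (𝟭 T.C).Additive
  | n + 1 => have := susn_additive n
    inferInstanceAs (shiftFunctor T.C (1 : ℤ) ⋙ susn T n).Additive

theorem desus : ∀ (n : ℕ) (k : ℤ), ∃ l : ℤ, Nonempty ((susn T n).obj (H⟦l⟧) ≅ H⟦k⟧)
  | 0, k => ⟨k, ⟨Iso.refl _⟩⟩
  | n + 1, k => by
    obtain ⟨l, ⟨c⟩⟩ := desus n k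
    exact ⟨l - 1, ⟨(susn T n).mapIso
      ((shiftFunctorAdd' T.C (l - 1) 1 l (by omega)).app H).symm ≪≫ c⟩⟩

theorem FT.susn : ∀ (n : ℕ) {Y : T.C}, FT Y → FT ((susn T n).obj Y)
  | 0, _, h => h
  | n + 1, _, h => FT.susn n (h.shift 1)

/-- the isomorphism `H ∧ Σ^n Y ⟶ Σ^n (H ∧ Y)` -/
def exn (H : T.C) : ∀ (n : ℕ) (Y : T.C), H ⊗ (susn T n).obj Y ⟶ (susn T n).obj (H ⊗ Y)
  | 0, _ => 𝟙 _
  | n + 1, Y => exn H n (Y⟦(1 : ℤ)⟧) ≫ (susn T n).map (exch H Y)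

instance isIso_exn : ∀ (n : ℕ) (Y : T.C), IsIso (exn H n Y)
  | 0, _ => inferInstanceAs (IsIso (𝟙 _))
  | n + 1, Y => have := isIso_exn n (Y⟦(1 : ℤ)⟧)
    inferInstanceAs (IsIso (exn H n (Y⟦(1 : ℤ)⟧) ≫ (susn T n).map (exch H Y)))

theorem un_exn : ∀ (n : ℕ) (Y : T.C),
    un e ((susn T n).obj Y) ≫ exn H n Y = (susn T n).map (un e Y)
  | 0, _ => Category.comp_id _
  | n + 1, Y => by
    change un e ((susn T n).obj (Y⟦(1 : ℤ)⟧)) ≫ exn H n (Y⟦(1 : ℤ)⟧) ≫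
      (susn T n).map (exch H Y) = (susn T n).map ((un e Y)⟦(1 : ℤ)⟧')
    rw [← Category.assoc, un_exn n, ← Functor.map_comp, un_exch]

theorem Fr.of_iso {Q Q' : T.C} (c : Q ≅ Q') (h : Fr H Q) : Fr H Q' := by
  obtain ⟨J, n, i, hi, hn⟩ := h
  refine ⟨J, n, fun j => i j ≫ c.hom, ?_, hn⟩
  have : Sigma.desc (fun j => i j ≫ c.hom) = Sigma.desc i ≫ c.hom :=
    Sigma.hom_ext _ _ fun j => by simp
  rw [this]
  infer_instance

end basic

variable [MonObj H]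

/-- `K` is a retract of `H ∧ K` -/
def Inj (H : T.C) [MonObj H] (K : T.C) : Prop := ∃ r : H ⊗ K ⟶ K, un η[H] K ≫ r = 𝟙 K

theorem Inj.of_iso {K K' : T.C} (c : K ≅ K') (h : Inj H K) : Inj H K' := by
  obtain ⟨r, hr⟩ := h
  exact ⟨H ◁ c.inv ≫ r ≫ c.hom, by rw [un_nat_assoc, reassoc_of% hr, Iso.inv_hom_id]⟩

theorem inj_ten (Y : T.C) : Inj H (H ⊗ Y) := by
  refine ⟨(α_ H H Y).inv ≫ μ[H] ▷ Y, ?_⟩
  have h1 : un η[H] (H ⊗ Y) ≫ (α_ H H Y).inv = ((λ_ H).inv ≫ η[H] ▷ H) ▷ Y := by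
    simp only [un]
    monoidal
  rw [reassoc_of% h1, ← comp_whiskerRight, Category.assoc, MonObj.one_mul, Iso.inv_hom_id,
    id_whiskerRight]

theorem inj_shift (k : ℤ) : Inj H (H⟦k⟧) := (inj_ten _).of_iso (tensorUnitShiftIso H k)

theorem inj_shift' (k : ℤ) : Inj H ((H⟦k⟧)⟦(1 : ℤ)⟧) :=
  (inj_shift (k + 1)).of_iso ((shiftFunctorAdd' T.C k 1 (k + 1) rfl).app H)

theorem Inj.ext {K Y : T.C} (h : Inj H K) (f : Y ⟶ K) : ∃ g, un η[H] Y ≫ g = f := by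
  obtain ⟨r, hr⟩ := h
  exact ⟨H ◁ f ≫ r, by rw [un_nat_assoc, hr, Category.comp_id]⟩

theorem Inj.ext' {K Y : T.C} (h : Inj H K) (f : Y⟦(1 : ℤ)⟧ ⟶ K) :
    ∃ g, (un η[H] Y)⟦(1 : ℤ)⟧' ≫ g = f := by
  obtain ⟨g, hg⟩ := h.ext f
  exact ⟨inv (exch H Y) ≫ g, by rw [← un_exch_assoc, IsIso.hom_inv_id_assoc, hg]⟩

/-! ### The bar resolution -/

theorem lin_neg (A : AddCommGrpCat.{0}) (f g : A) : R236.lin A f (-1) g = f - g := by
  rw [R236.lin, neg_one_zsmul, sub_eq_add_neg]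

theorem cod_zero : cod H 0 = un η[H] H - (ρ_ H).inv ≫ H ◁ η[H] :=
  lin_neg (R236.grp H (H ⊗ H)) _ _

theorem cod_succ (n : ℕ) : cod H (n + 1) = un η[H] (H ⊗ pw H n) - 𝟙 _ ≫ H ◁ cod H n := by
  rw [Category.id_comp]
  exact lin_neg (R236.grp (H ⊗ pw H n) (H ⊗ (H ⊗ pw H n))) _ _

theorem unit_inl {Y : T.C} (f : T.one ⟶ Y) : η[H] ≫ (ρ_ H).inv ≫ H ◁ f = f ≫ un η[H] Y := by
  rw [← un_nat, un, Category.assoc, rightUnitor_inv_naturality_assoc, unitors_inv_equal]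

theorem key_zero {K : T.C} (f : H ⟶ K) (h : η[H] ≫ f = 0) :
    cod H 0 ≫ H ◁ f = f ≫ un η[H] K :=
  (congrArg (· ≫ H ◁ f) cod_zero).trans (un_step _ _ f h)

theorem key_succ (n : ℕ) {K : T.C} (f : H ⊗ pw H n ⟶ K) (h : cod H n ≫ f = 0) :
    cod H (n + 1) ≫ H ◁ f = f ≫ un η[H] K :=
  (congrArg (· ≫ H ◁ f) (cod_succ n)).trans (un_step _ _ f h)

theorem unit_cod : η[H] ≫ (cod H 0 : H ⟶ H ⊗ H) = 0 :=
  (congrArg (η[H] ≫ ·) cod_zero).trans (by rw [Preadditive.comp_sub, unit_inl, sub_self])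

theorem sq_step {Y : T.C} (d : Y ⟶ H ⊗ Y) (h : d ≫ H ◁ d = d ≫ un η[H] _) :
    d ≫ (un η[H] (H ⊗ Y) - 𝟙 _ ≫ H ◁ d) = 0 := by
  rw [Preadditive.comp_sub, Category.id_comp, h, sub_self]

theorem cod_cod : ∀ n, cod H n ≫ (cod H (n + 1) : H ⊗ pw H n ⟶ H ⊗ (H ⊗ pw H n)) = 0
  | 0 => (congrArg (cod H 0 ≫ ·) (cod_succ 0)).trans (sq_step _ (key_zero _ unit_cod))
  | n + 1 => (congrArg (cod H (n + 1) ≫ ·) (cod_succ (n + 1))).trans
      (sq_step _ (key_succ n _ (cod_cod n)))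

theorem ex_cobar : Ex H (cobar H) where
  e_δ := unit_cod (H := H)
  sq := cod_cod
  surj k f := by
    obtain ⟨r, hr⟩ := inj_shift (H := H) k
    exact ⟨(ρ_ H).inv ≫ H ◁ f ≫ r, by
      change η[H] ≫ (ρ_ H).inv ≫ H ◁ f ≫ r = f
      rw [reassoc_of% (unit_inl f), hr, Category.comp_id]⟩
  ex₀ k f hf := by
    obtain ⟨r, hr⟩ := inj_shift (H := H) k
    exact ⟨H ◁ f ≫ r, (Category.assoc _ _ _).symm.trans ((congrArg (· ≫ r) (key_zero (H := H) f hf)).trans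
      (by rw [Category.assoc, hr, Category.comp_id]))⟩
  ex n k f hf := by
    obtain ⟨r, hr⟩ := inj_shift (H := H) k
    exact ⟨H ◁ f ≫ r, (Category.assoc _ _ _).symm.trans
      ((congrArg (· ≫ r) (key_succ n f hf)).trans (by rw [Category.assoc, hr, Category.comp_id]))⟩

/-! ### The Adams resolution -/

variable (A : AdamsTower η[H])

theorem dist' (s : ℕ) : P251.H.Dist (A.g s) (un η[H] (A.X s)) (A.d s) := by
  rw [← hur_un]
  exact A.dist s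

theorem adams_δ (n : ℕ) : (adams A).δ n =
    (susn T n).map (A.d n ≫ (un η[H] (A.X (n + 1)))⟦(1 : ℤ)⟧') := by
  rw [← hur_un]
  rfl

theorem adams_e : (adams A).e = A.base.inv ≫ un η[H] (A.X 0) := by
  rw [← hur_un]
  rfl

theorem core₁ {K : T.C} (hK : Inj H K) (m : ℕ) (f : H ⊗ A.X m ⟶ K)
    (h : un η[H] (A.X m) ≫ f = 0) :
    ∃ v, (A.d m ≫ (un η[H] (A.X (m + 1)))⟦(1 : ℤ)⟧') ≫ v = f := by
  obtain ⟨u, hu⟩ := (dist' A m).desc₃ f h
  obtain ⟨v, hv⟩ := hK.ext' u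
  exact ⟨v, by rw [Category.assoc, hv, hu]⟩

theorem core₂ {K : T.C} (hK : Inj H K) (m : ℕ) (f : (A.X (m + 1))⟦(1 : ℤ)⟧ ⟶ K)
    (h : A.d m ≫ f = 0) : f = 0 := by
  obtain ⟨u, hu⟩ := (dist' A m).desc₁ f h
  obtain ⟨v, hv⟩ := hK.ext' u
  rw [← hu, ← hv, ← Functor.map_comp_assoc, (dist' A m).zero₁₂, Functor.map_zero, zero_comp]

theorem ex_adams : Ex H (adams A) where
  e_δ := by
    rw [adams_e, adams_δ]
    change (A.base.inv ≫ un η[H] (A.X 0)) ≫ A.d 0 ≫ _ = 0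
    rw [Category.assoc, reassoc_of% (dist' A 0).zero₂₃, zero_comp, comp_zero]
  sq n := by
    rw [adams_δ, adams_δ]
    change (susn T n).map _ ≫ (susn T n).map (_⟦(1 : ℤ)⟧') = 0
    rw [← Functor.map_comp, Category.assoc, ← Functor.map_comp,
      reassoc_of% (dist' A (n + 1)).zero₂₃, zero_comp, Functor.map_zero, comp_zero,
      Functor.map_zero]
  surj k f := by
    obtain ⟨g, hg⟩ := (inj_shift (H := H) k).ext (A.base.hom ≫ f)
    refine ⟨g, ?_⟩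
    rw [adams_e]
    change (A.base.inv ≫ un η[H] (A.X 0)) ≫ g = f
    rw [Category.assoc, hg, Iso.inv_hom_id_assoc]
  ex₀ k f hf := by
    rw [adams_e] at hf
    rw [adams_δ]
    refine core₁ A (inj_shift k) 0 f ?_
    rw [← cancel_epi A.base.inv, comp_zero, ← Category.assoc]
    exact hf
  ex n k f hf := by
    obtain ⟨l, ⟨c⟩⟩ := desus (H := H) (n + 1) k
    obtain ⟨f', hf'⟩ := (susn T (n + 1)).map_surjective
      ((f : (susn T (n + 1)).obj (H ⊗ A.X (n + 1)) ⟶ H⟦k⟧) ≫ c.inv)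
    obtain rfl : f = (susn T (n + 1)).map f' ≫ c.hom := (Iso.comp_inv_eq c).1 hf'.symm
    rw [adams_δ] at hf ⊢
    have h1 : (susn T n).map ((A.d n ≫ (un η[H] (A.X (n + 1)))⟦(1 : ℤ)⟧') ≫ f'⟦(1 : ℤ)⟧') =
        (susn T n).map 0 := by
      rw [Functor.map_zero, Functor.map_comp]
      exact (cancel_mono c.hom).1 (((Category.assoc _ _ _).trans hf).trans zero_comp.symm)
    have h2 := core₂ A (inj_shift' l) n _
      ((Category.assoc _ _ _).symm.trans ((susn T n).map_injective h1))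
    rw [← Functor.map_comp, ← (shiftFunctor T.C (1 : ℤ)).map_zero] at h2
    obtain ⟨v, hv⟩ := core₁ A (inj_shift l) (n + 1) f' ((shiftFunctor T.C (1 : ℤ)).map_injective h2)
    refine ⟨(susn T (n + 1)).map v ≫ c.hom, ?_⟩
    rw [← hv, Functor.map_comp (susn T (n + 1)) _ v, Category.assoc]

/-! ### The chain map -/

/-- the projection of the cobar complex onto `E_1` -/
noncomputable def pr : ∀ n, pw H n ⟶ (susn T n).obj (H ⊗ A.X n)
  | 0 => (ρ_ H).inv ≫ H ◁ A.base.inv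
  | n + 1 => H ◁ (pr n ≫ (susn T n).map (A.d n)) ≫ exn H (n + 1) (A.X (n + 1))

theorem e_pr : (cobar H).e ≫ pr A 0 = (adams A).e := by
  rw [adams_e]
  exact unit_inl (H := H) _

theorem pr_step (n : ℕ) (h : cod H n ≫ H ◁ (pr A n ≫ (susn T n).map (A.d n)) =
    (pr A n ≫ (susn T n).map (A.d n)) ≫ un η[H] _) :
    (cobar H).δ n ≫ pr A (n + 1) = pr A n ≫ (adams A).δ n := by
  rw [adams_δ]
  change cod H n ≫ H ◁ (pr A n ≫ (susn T n).map (A.d n)) ≫ exn H (n + 1) (A.X (n + 1)) = _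
  rw [reassoc_of% h, Functor.map_comp]
  exact congrArg (pr A n ≫ (susn T n).map (A.d n) ≫ ·) (un_exn (n + 1) (A.X (n + 1)))

theorem δ_pr : ∀ n, (cobar H).δ n ≫ pr A (n + 1) = pr A n ≫ (adams A).δ n
  | 0 => pr_step A 0 (key_zero _ (by
      change η[H] ≫ ((ρ_ H).inv ≫ H ◁ A.base.inv) ≫ A.d 0 = 0
      rw [← Category.assoc, unit_inl, Category.assoc, (dist' A 0).zero₂₃, comp_zero]))
  | n + 1 => pr_step A (n + 1) (key_succ n _ (by
      have h := δ_pr n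
      rw [adams_δ] at h
      refine (Category.assoc _ _ _).symm.trans ((congrArg (· ≫ _) h).trans ?_)
      change (pr A n ≫ (susn T n).map _) ≫ (susn T n).map ((A.d (n + 1))⟦(1 : ℤ)⟧') = 0
      rw [Category.assoc, ← Functor.map_comp, Category.assoc, ← Functor.map_comp,
        (dist' A (n + 1)).zero₂₃, Functor.map_zero, comp_zero, Functor.map_zero, comp_zero]))

theorem pr_two : pr A 2 = proj A := by
  simp only [proj, comp, tenHom, ident, id_tensorHom]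
  change H ◁ ((H ◁ (((ρ_ H).inv ≫ H ◁ A.base.inv) ≫ A.d 0) ≫ (𝟙 _ ≫ exch H _)) ≫
    (A.d 1)⟦(1 : ℤ)⟧') ≫ (𝟙 _ ≫ exch H _) ≫ (exch H _)⟦(1 : ℤ)⟧' = _
  simp only [Category.id_comp, Category.assoc]

/-! ### Finite type -/

theorem ft_pw (hD : RowD2) (hH : IsHF 3 η[H]) (h : FT (H ⊗ H)) : ∀ n, FT (H ⊗ pw H n)
  | 0 => h
  | n + 1 => hD T H hH H _ h (ft_pw hD hH h n)

theorem fr_cobar (hD₁ : RowD1) (hD : RowD2) (hH : IsHF 3 η[H]) (h : FT (H ⊗ H)) :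
    ∀ n, Fr H ((cobar H).Q n)
  | 0 => (hD₁ T H hH _ ((ft_H hH).of_iso (ρ_ H).symm)).of_iso (ρ_ H)
  | n + 1 => hD₁ T H hH _ (ft_pw hD hH h n)

theorem ft_tower (hD : RowD2) (hH : IsHF 3 η[H]) (h : FT (H ⊗ H)) : ∀ n, FT (H ⊗ A.X n)
  | 0 => (ft_H hH).of_iso ((ρ_ H).symm ≪≫ whiskerLeftIso H A.base.symm)
  | n + 1 => FT.ext₁ (T.tensor.distinguished H _ (A.dist n)) (ft_tower hD hH h n)
      (hD T H hH H _ h (ft_tower hD hH h n))

theorem fr_adams (hD₁ : RowD1) (hD : RowD2) (hH : IsHF 3 η[H]) (h : FT (H ⊗ H)) (n : ℕ) :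
    Fr H ((adams A).Q n) :=
  have c := asIso (exn H n (A.X n))
  (hD₁ T H hH _ (((ft_tower A hD hH h n).susn n).of_iso c.symm)).of_iso c

end Vale.Agent.Q236
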