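import Vale.Agent.Q236.Base
import Vale.Agent.P251.H.Dist
import Vale.Agent.P251.S.Coprod
import Mathlib.Data.Finsupp.Interval

/-!
# P236, literal `Ext`: spectra of finite type
-/

open CategoryTheory MonoidalCategory MonObj Limits Pretriangulated

namespace Vale.Agent.Q236

open Vale.Agent.P251.St Vale.Agent.P236Z.St Vale.Agent.P251.M Vale.Agent.P251.S

variable {T : SHCat} {X Y Z : T.C}

theorem FT.of_retract (i : Y ⟶ X) (r : X ⟶ Y) (h : i ≫ r = 𝟙 Y) (hX : FT X) : FT Y := by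
  obtain ⟨⟨n, hn⟩, hf⟩ := hX
  refine ⟨⟨n, hn.of_retract i r h⟩, fun k => ?_⟩
  have := hf k
  exact Finite.of_surjective (fun a : sph T k ⟶ X => a ≫ r) fun y =>
    ⟨y ≫ i, by simp only [Category.assoc, h, Category.comp_id]⟩

theorem FT.of_iso (e : X ≅ Y) (hX : FT X) : FT Y := hX.of_retract e.inv e.hom e.inv_hom_id

theorem finite_shift {k m l : ℤ} (h : k + m = l) (hk : Finite (sph T k ⟶ X)) :
    Finite (sph T l ⟶ X⟦m⟧) := by
  let c : sph T l ≅ (sph T k)⟦m⟧ := (shiftFunctorAdd' T.C k m l h).app _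
  refine Finite.of_surjective (fun a : sph T k ⟶ X => c.hom ≫ a⟦m⟧') fun y => ?_
  obtain ⟨a, ha⟩ := (shiftFunctor T.C m).map_surjective (c.inv ≫ y)
  exact ⟨a, by simp only [ha, Iso.hom_inv_id_assoc]⟩

theorem FT.shift (hX : FT X) (m : ℤ) : FT (X⟦m⟧) := by
  obtain ⟨⟨n, hn⟩, hf⟩ := hX
  exact ⟨⟨n + m, hn.shift m _ rfl⟩, fun k => finite_shift (sub_add_cancel k m) (hf _)⟩

theorem FT.ext {f : X ⟶ Y} {g : Y ⟶ Z} {h : Z ⟶ X⟦(1 : ℤ)⟧} (D : P251.H.Dist f g h) (hX : FT X)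
    (hZ : FT Z) : FT Y := by
  obtain ⟨⟨n, hn⟩, hf⟩ := hX
  obtain ⟨⟨m, hm⟩, hg⟩ := hZ
  refine ⟨⟨min n m, Conn.ext _ D (hn.mono (min_le_left _ _)) (hm.mono (min_le_right _ _))⟩,
    fun k => ?_⟩
  have := hf k
  have := hg k
  let s := Function.invFun fun y : sph T k ⟶ Y => y ≫ g
  refine Finite.of_surjective (fun p : (sph T k ⟶ X) × (sph T k ⟶ Z) => p.1 ≫ f + s p.2)
    fun y => ?_
  have hs : s (y ≫ g) ≫ g = y ≫ g :=
    Function.invFun_eq (f := fun y : sph T k ⟶ Y => y ≫ g) ⟨y, rfl⟩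
  obtain ⟨a, ha⟩ := D.lift₂ (y - s (y ≫ g)) (by rw [Preadditive.sub_comp, hs, sub_self])
  exact ⟨(a, y ≫ g), by simp only [ha, sub_add_cancel]⟩

theorem FT.ext₃ {f : X ⟶ Y} {g : Y ⟶ Z} {h : Z ⟶ X⟦(1 : ℤ)⟧} (D : P251.H.Dist f g h)
    (hX : FT X) (hY : FT Y) : FT Z := FT.ext D.rot hY (hX.shift 1)

theorem FT.ext₁ {f : X ⟶ Y} {g : Y ⟶ Z} {h : Z ⟶ X⟦(1 : ℤ)⟧} (D : P251.H.Dist f g h)
    (hY : FT Y) (hZ : FT Z) : FT X :=
  ((FT.ext₃ D.rot hY hZ).shift (-1)).of_iso (shiftShiftNeg X 1)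

theorem FT.wedge {J : Type} (W : J → T.C) (n : J → ℤ) (hn : ∀ k : ℤ, {j | n j ≤ k}.Finite)
    (hc : ∀ j, Conn (n j) (W j)) (hf : ∀ j k, Finite (sph T k ⟶ W j)) : FT (∐ W) := by
  classical
  have key : ∀ (k : ℤ) (f : sph T k ⟶ ∐ W), ∃ g : ∀ j, sph T k ⟶ W j,
      f = ∑ j ∈ (hn k).toFinset, g j ≫ Sigma.ι W j := fun k f => by
    obtain ⟨s, g, rfl⟩ := compact_sum W (isSphere_one_shift k) f
    refine ⟨fun j => if j ∈ s then g j else 0, ?_⟩
    have h1 : ∀ j, j ∉ (hn k).toFinset → g j = 0 := fun j hj =>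
      hc j k (by simpa using hj) _
    refine (Finset.sum_subset (Finset.inter_subset_left (s₂ := (hn k).toFinset))
      fun j hj h => ?_).symm.trans (Eq.trans (Finset.sum_congr rfl fun j hj => ?_)
        (Finset.sum_subset (Finset.inter_subset_right (s₁ := s)) fun j hj h => ?_))
    · rw [h1 j fun h' => h (Finset.mem_inter.2 ⟨hj, h'⟩), zero_comp]
    · beta_reduce
      rw [if_pos (Finset.mem_inter.1 hj).1]
    · beta_reduce
      rw [if_neg fun h' => h (Finset.mem_inter.2 ⟨h', hj⟩), zero_comp]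
  constructor
  · obtain ⟨m, hm⟩ := ((hn 0).image n).bddBelow
    refine ⟨min m 0, fun k hk f => ?_⟩
    obtain ⟨g, rfl⟩ := key k f
    refine Finset.sum_eq_zero fun j hj => ?_
    have h1 : n j ≤ k := by simpa using hj
    have h2 : m ≤ n j := hm ⟨j, show n j ≤ 0 by omega, rfl⟩
    omega
  · intro k
    refine Finite.of_surjective (fun g : ∀ j : (hn k).toFinset, sph T k ⟶ W j =>
      ∑ j : (hn k).toFinset, g j ≫ Sigma.ι W j) fun f => ?_
    obtain ⟨g, rfl⟩ := key k f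
    exact ⟨fun j => g j, Finset.sum_coe_sort _ fun j => g j ≫ Sigma.ι W j⟩

theorem ft_H {H : T.C} {e : T.one ⟶ H} (hH : IsHF 3 e) : FT H := by
  refine ⟨⟨0, fun k hk f => hH.conc k hk.ne f⟩, fun k => ?_⟩
  by_cases hk : k = 0
  · subst hk
    let c : sph T 0 ≅ T.one := (shiftFunctorZero T.C ℤ).app _
    refine Finite.of_surjective (fun m : Fin 3 => c.hom ≫ (((m : ℕ) : ℤ) • e)) fun f => ?_
    obtain ⟨m, hm⟩ := hH.gen (c.inv ≫ f)
    have h0 := Int.emod_nonneg m (by norm_num : (3 : ℤ) ≠ 0)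
    have h1 := Int.emod_lt_of_pos m (by norm_num : (0 : ℤ) < 3)
    refine ⟨⟨(m % 3).toNat, by omega⟩, ?_⟩
    have h2 : (m % 3) • e = m • e := by
      rw [← sub_eq_zero, ← sub_smul]
      exact (hH.ord _).2 (by push_cast; omega)
    simp only [Int.toNat_of_nonneg h0, h2, ← hm, Iso.hom_inv_id_assoc]
  · have : Subsingleton (sph T k ⟶ H) := ⟨fun a b => by rw [hH.conc k hk a, hH.conc k hk b]⟩
    infer_instance

theorem finite_wt (k : ℤ) :
    {a : ℕ →₀ ℕ | (a.sum fun m e => ((e : ℕ) : ℤ) * ((m + 1 : ℕ) : ℤ)) ≤ k}.Finite := by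
  classical
  have h1 : ∀ (a : ℕ →₀ ℕ) (i : ℕ), ((a i : ℕ) : ℤ) * ((i + 1 : ℕ) : ℤ) ≤
      a.sum fun m e => ((e : ℕ) : ℤ) * ((m + 1 : ℕ) : ℤ) := fun a i => by
    by_cases hi : i ∈ a.support
    · exact Finset.single_le_sum (f := fun m => ((a m : ℕ) : ℤ) * ((m + 1 : ℕ) : ℤ))
        (fun j _ => by positivity) hi
    · rw [Finsupp.notMem_support_iff.1 hi, Nat.cast_zero, zero_mul]
      exact Finset.sum_nonneg fun j _ => by positivity
  refine (Set.finite_Iic (∑ i ∈ Finset.range k.toNat, Finsupp.single i k.toNat)).subset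
    fun a ha i => ?_
  have h2 := (h1 a i).trans ha
  rw [Finsupp.finsetSum_apply]
  simp only [Finsupp.single_apply, Finset.sum_ite_eq', Finset.mem_range]
  push_cast at h2
  split_ifs with h
  · have : (a i : ℤ) ≤ k := by nlinarith [Int.natCast_nonneg (a i), Int.natCast_nonneg i]
    omega
  · by_contra h3
    have : (1 : ℤ) ≤ a i := by omega
    have : (i : ℤ) + 1 ≤ k := by nlinarith [Int.natCast_nonneg i]
    omega

end Vale.Agent.Q236
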