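import Vale.Agent.Q236.FT
import Vale.Agent.P236K.St.Pi4

/-!
# P236, literal `Ext`: the dual Steenrod algebra is of finite type
-/

open CategoryTheory MonoidalCategory MonObj Limits Pretriangulated

namespace Vale.Agent.Q236

open Vale.Agent.P251 Vale.Agent.P251.S Vale.Agent.P251.T Vale.Agent.P251.M Vale.Agent.P251.F
  Vale.Agent.P251.I Vale.Agent.P251.H EvenSpheres Vale.Agent.P257.H80 Vale.Agent.P236K.St5
  Vale.Agent.P236Z Vale.Agent.P251.St Vale.Agent.P236K.St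

variable {T : SHCat} {F : SpaceFunctor T.C} {e : F.S.obj CCF ≅ (stdEven T.C).L}
  {D : MUData T.C}

theorem FT.tenS {K : T.C} (hK : FT K) (k : ℤ) : FT (K ⊗ (stdEven T.C).S k) :=
  (hK.shift (2 * k)).of_iso (((stdEven T.C).shiftNat (Iso.refl _) k).app K).symm

/-- `K ⊗ MU` is of finite type if `K` is. -/
theorem FT.tenR (hU : MUUniv e D) {K : T.C} [MonObj K] [IsCommMonObj K] (u : D.R ⟶ K)
    [IsMonHom u] (hK : FT K) : FT (K ⊗ D.R) := by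
  obtain ⟨b, hk, -⟩ := D.exists_basis_of u hU
  obtain ⟨n, hn⟩ := hK.1
  have := b.isIso
  refine (FT.wedge (fun a => K ⊗ (stdEven T.C).S (b.k a)) (fun a => n + 2 * b.k a)
    (fun k => (finite_wt (k - n)).subset fun a ha => ?_) (fun a => ?_) fun a k =>
      (hK.tenS _).2 k).of_iso (asIso (Sigma.desc fun a => (inlM K D.R ⊗ₘ b.w a) ≫ μ[K ⊗ D.R]))
  · have h0 : 0 ≤ Cob.degU a := Finset.sum_nonneg fun i _ => by positivity
    have h1 : n + 2 * b.k a ≤ k := ha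
    rw [hk] at h1
    change Cob.degU a ≤ k - n
    omega
  · exact (hn.shift (2 * b.k a) _ rfl).of_iso
      (((stdEven T.C).shiftNat (Iso.refl _) (b.k a)).app K).symm

variable {H : T.C} [MonObj H] [IsCommMonObj H]

theorem ft_succ (hU : MUUniv e D) {j : ℕ} (hj : j ≠ 0) (Q : X.PD D 3 j) (hQ : FT (H ⊗ Q.P))
    (Q' : X.PD D 3 (j + 1)) : FT (H ⊗ Q'.P) := by
  obtain ⟨C, q, δ, hC⟩ := distinguished_cocone_triangle (D.R ◁ D.vel 3 j ≫ μ[D.R])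
  obtain ⟨o⟩ := Q.exists_out q δ hC hU hj (by norm_num)
  let _ := o.mon
  have _ := o.comm
  have _ := o.hom
  let i : Q.P ⊗ D.R ⟶ Q.P ⊗ C := (Q.stepQIn q δ hC hU).i
  have hi : IsMonHom i := o.hom
  obtain ⟨f, hf, hf'⟩ := Q'.desc (Q.P ⊗ C) (inrM Q.P D.R ≫ i) (Q.odd_cof q δ hC hU) fun l hl => by
    rcases Nat.lt_succ_iff_lt_or_eq.1 hl with h | rfl
    · rw [X.lawOf_comp, vv_map, Q.vv_inr h, map_zero]
    · rw [X.vv_lawOf_eq_zero_iff, ← Category.assoc]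
      exact X.comp_inrM_q _ q δ hC
  obtain ⟨g₀, hg₀, hg₀'⟩ := Q.desc Q'.P Q'.u Q'.odd fun l hl =>
    Q'.vv_zero_of_lt (Nat.lt_succ_of_lt hl)
  obtain ⟨g, hg, hg'⟩ := o.desc Q'.P (descM g₀ Q'.u) (by
      change (D.vel 3 j ≫ inrM Q.P D.R) ≫ _ = 0
      rw [Category.assoc, inrM_descM]
      exact (X.vv_lawOf_eq_zero_iff _ 3 j).1 (Q'.vv_zero_of_lt (Nat.lt_succ_self j)))
    (fun a => Q'.odd.h1 _ a) fun a ha =>
      X.eq_zero_of_two' (p := 3) (by norm_num) Q'.u (Q'.vv_zero_of_lt (Nat.succ_pos j)) a ha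
  replace hg' : i ≫ g = descM g₀ Q'.u := hg'
  have h1 : f ≫ g = 𝟙 _ := Q'.uniq _ _ _ inferInstance inferInstance Q'.odd (by
    rw [reassoc_of% hf', hg', inrM_descM, Category.comp_id])
  refine FT.of_retract (H ◁ f) (H ◁ g) (by
    rw [← MonoidalCategory.whiskerLeft_comp, h1, MonoidalCategory.whiskerLeft_id]) ?_
  obtain ⟨d, hd⟩ := X.dist_whiskerLeft (H ⊗ Q.P) hC
  have h2 : FT ((H ⊗ Q.P) ⊗ D.R) := hQ.tenR hU (Q.u ≫ inrM H Q.P)
  exact (FT.ext₃ hd ((h2.tenS _).of_iso (α_ _ _ _)) h2).of_iso (α_ _ _ _)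

omit [MonObj H] [IsCommMonObj H] in
theorem ft_one (hR : FT (H ⊗ D.R)) (Q' : X.PD D 3 1) : FT (H ⊗ Q'.P) := by
  obtain ⟨M, i, δ, hM⟩ := distinguished_cocone_triangle (((3 : ℕ) : ℤ) • 𝟙 (𝟙_ T.C))
  have ho := X.odd_base D (p := 3) (by norm_num) hM
  obtain ⟨o⟩ := X.QIn.quot (X.baseQIn D.R hM) (X.baseQIn_van D.R (by decide) hM ho)
  let _ := o.mon
  have _ := o.comm
  have h1 : IsMonHom (X.iB D i) := o.hom
  have h2 := X.natCast_base D hM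
  have h3 := (X.vv_zero_lawOf_iff Q'.u).1 (Q'.vv_zero_of_lt zero_lt_one)
  obtain ⟨g, hg, hg'⟩ := o.desc Q'.P Q'.u (by
      change (((3 : ℕ) : ℤ) • η[D.R]) ≫ Q'.u = 0
      rw [Preadditive.zsmul_comp, IsMonHom.one_hom]
      exact h3)
    (fun a => Q'.odd.h1 0 a) fun a ha => X.eq_zero_of_two (p := 3) (by norm_num) h3 a ha
  replace hg' : X.iB D i ≫ g = Q'.u := hg'
  obtain ⟨f, hf, hf'⟩ := Q'.desc (D.R ⊗ M) (X.iB D i) ho fun l hl => by
    obtain rfl : l = 0 := by omega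
    rw [vv_zero, h2]
  have h4 : f ≫ g = 𝟙 _ := Q'.uniq _ _ _ inferInstance inferInstance Q'.odd (by
    rw [reassoc_of% hf', hg', Category.comp_id])
  refine FT.of_retract (H ◁ f) (H ◁ g) (by
    rw [← MonoidalCategory.whiskerLeft_comp, h4, MonoidalCategory.whiskerLeft_id]) ?_
  obtain ⟨d, hd⟩ := X.dist_whiskerLeft (H ⊗ D.R) hM
  have h5 : FT ((H ⊗ D.R) ⊗ 𝟙_ T.C) := hR.of_iso (ρ_ _).symm
  exact (FT.ext₃ hd h5 h5).of_iso (α_ _ _ _)

theorem ft_PD (hU : MUUniv e D) (hR : FT (H ⊗ D.R)) :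
    ∀ (j : ℕ) (Q : X.PD D 3 (j + 1)), FT (H ⊗ Q.P)
  | 0, Q => ft_one hR Q
  | j + 1, Q' => by
    obtain ⟨Q⟩ := X.exists_PD hU (p := 3) (by norm_num) (Nat.succ_ne_zero j)
    exact ft_succ hU (Nat.succ_ne_zero j) Q (ft_PD hU hR j Q) Q'

omit [IsCommMonObj H] in
theorem isHF' (hH : St.IsHF 3 η[H]) : Tr.IsHF 3 η[H] := ⟨hH.conc, hH.gen, hH.ord⟩

theorem cellH (S : Susp T) (hH : St.IsHF 3 η[H]) : BigCell T.C 0 H := by
  have := locallySmall_self.{0} T.C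
  obtain ⟨D, -⟩ := exists_MU T S
  exact cell_H (isHF' hH) D

/-- **The dual Steenrod algebra is of finite type.** -/
theorem ft_HH (S : Susp T) (hH : St.IsHF 3 η[H]) : FT (H ⊗ H) := by
  have := locallySmall_self.{0} T.C
  have hH' := isHF' hH
  obtain ⟨D, hU⟩ := exists_MU T S
  obtain ⟨u, _⟩ := Dt.exists_thom D hH.conc
  have hc := cell_H hH' D
  refine ⟨⟨0, P257.H762.BigCell.conn' D.conn_unit (hc.tensor hc 0 rfl)⟩, fun k => ?_⟩
  obtain ⟨P⟩ := X.exists_PD hU (p := 3) (by norm_num) (Nat.succ_ne_zero k.toNat)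
  obtain ⟨Q⟩ := nonempty_BD hU (Nat.succ_ne_zero k.toNat)
  have h3 := (X.vv_zero_lawOf_iff P.u).1 (P.vv_zero_of_lt (Nat.succ_pos _))
  obtain ⟨s, hs, -⟩ := Q.desc P.P (locO_three h3) P.u P.odd fun _ hl => P.vv_zero_of_lt hl
  obtain ⟨r, hr, -⟩ := P.desc H u (BD.odd_H hH') fun l _ => by
    change vv 3 l (lawOf u) = 0
    rw [lawOf_conc hU (BD.three_H hH') hH.conc u]
    exact vv_add (three_ring (BD.three_H hH')) l
  obtain ⟨C, g, d, hC, hcc⟩ := CofIn.whiskerLeft H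
    (fun Z hZ => hc.tensor hZ _ (zero_add _)) (Q.cofIn_kappa hH' (s ≫ r))
  have := (ft_PD hU ((ft_H hH).tenR hU u) _ P).2 k
  refine Finite.of_surjective (fun a : St.sph T k ⟶ H ⊗ P.P => a ≫ H ◁ r) fun y => ?_
  obtain ⟨x, hx⟩ := hC.lift₂ y (P257.H762.BigCell.conn' D.conn_unit hcc k (by
    have h4 : ((k.toNat + 1 : ℕ) : ℤ) < 3 ^ (k.toNat + 1) := by
      exact_mod_cast Nat.lt_pow_self (by norm_num)
    have h5 := Int.self_le_toNat k
    push_cast at h4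
    change k < 2 * (3 ^ (k.toNat + 1) - 1) + 1
    omega) _)
  exact ⟨x ≫ H ◁ s, by simp only [← hx, MonoidalCategory.whiskerLeft_comp, Category.assoc]⟩

end Vale.Agent.Q236
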