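import Mathlib.Algebra.Module.ZMod
import Mathlib.Algebra.Field.ZMod
import Mathlib.LinearAlgebra.Basis.VectorSpace
import Vale.Agent.Q236.Base
import Vale.Agent.P251.M.BUPi
import Vale.Agent.P251.S.Coprod

/-!
# P236, literal `Ext`: `H ∧ Y` is a free `H`-module (rows D1, D2, D3)
-/

open CategoryTheory MonoidalCategory MonObj Limits

namespace Vale.Agent.Q236

open Vale.Agent.P251.St Vale.Agent.P251.St.SHCat Vale.Agent.P236Z.St Vale.Agent.P236K.St

namespace Free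

/-- A group killed by three has a basis over the field with three elements. -/
lemma exists_basis_grp (V : Type) [AddCommGroup V] (h : ∀ v : V, 3 • v = 0) :
    ∃ (J : Type) (x : J → V), Function.Injective x ∧ (∀ j, x j ≠ 0) ∧
      (∀ (s : Finset J) (m : J → ℤ), ∑ j ∈ s, m j • x j = 0 → ∀ j ∈ s, (3 : ℤ) ∣ m j) ∧
      ∀ P : AddSubgroup V, (∀ j, x j ∈ P) → ∀ v, v ∈ P := by
  have : Fact (Nat.Prime 3) := ⟨Nat.prime_three⟩
  let _ : Module (ZMod 3) V := AddCommGroup.zmodModule h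
  let b := Module.Basis.ofVectorSpace (ZMod 3) V
  refine ⟨_, b, b.injective, b.ne_zero, fun s m hm j hj => ?_, fun P hP v => ?_⟩
  · have h1 := linearIndependent_iff'.1 b.linearIndependent s (fun j => (m j : ZMod 3))
      (by simpa only [Int.cast_smul_eq_zsmul] using hm) j hj
    exact (ZMod.intCast_zmod_eq_zero_iff_dvd (m j) 3).1 h1
  · induction b.mem_span v using Submodule.span_induction with
    | mem y hy => obtain ⟨j, rfl⟩ := hy; exact hP j
    | zero => exact P.zero_mem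
    | add y z _ _ hy hz => exact P.add_mem hy hz
    | smul c y _ hy =>
      obtain ⟨m, rfl⟩ := ZMod.intCast_surjective c
      rw [Int.cast_smul_eq_zsmul]
      exact P.zsmul_mem hy m

variable {T : SHCat} {H : T.C} [MonObj H]

/-- the action of `H` on `H ∧ Y` -/
def act (H : T.C) [MonObj H] (Y : T.C) : H ⊗ H ⊗ Y ⟶ H ⊗ Y := (α_ H H Y).inv ≫ μ[H] ▷ Y

/-- the Hurewicz map -/
def un (H : T.C) [MonObj H] (X : T.C) : X ⟶ H ⊗ X := (λ_ X).inv ≫ η[H] ▷ X

/-- the `H`-linear extension of `x` -/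
def ext {X Y : T.C} (x : X ⟶ H ⊗ Y) : H ⊗ X ⟶ H ⊗ Y := H ◁ x ≫ act H Y

lemma un_eq_hur (X : T.C) : un H X = hur η[H] X := by simp [un]

@[reassoc]
lemma un_nat {X Y : T.C} (f : X ⟶ Y) : un H X ≫ H ◁ f = f ≫ un H Y := by
  simp only [un, Category.assoc, ← whisker_exchange, leftUnitor_inv_naturality_assoc]

@[reassoc]
lemma act_nat {X Y : T.C} (f : X ⟶ Y) : act H X ≫ H ◁ f = H ◁ H ◁ f ≫ act H Y := by
  simp only [act, Category.assoc, ← whisker_exchange, associator_inv_naturality_right_assoc]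

@[reassoc]
lemma un_act (Y : T.C) : un H (H ⊗ Y) ≫ act H Y = 𝟙 _ := by
  simp only [un, act, Category.assoc, associator_inv_naturality_left_assoc, ← comp_whiskerRight,
    MonObj.one_mul]
  monoidal

@[reassoc]
lemma wl_un_act (Y : T.C) : H ◁ un H Y ≫ act H Y = 𝟙 _ := by
  simp only [un, act, Category.assoc, whiskerLeft_comp, associator_inv_naturality_middle_assoc,
    ← comp_whiskerRight, MonObj.mul_one]
  monoidal

@[reassoc]
lemma act_act (Y : T.C) : act H (H ⊗ Y) ≫ act H Y = H ◁ act H Y ≫ act H Y := by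
  simp only [act, Category.assoc, whiskerLeft_comp, associator_inv_naturality_middle_assoc,
    associator_inv_naturality_left_assoc, ← comp_whiskerRight, MonObj.mul_assoc_flip]
  simp only [comp_whiskerRight]
  monoidal

@[reassoc]
lemma un_ext {X Y : T.C} (x : X ⟶ H ⊗ Y) : un H X ≫ ext x = x := by
  rw [ext, un_nat_assoc, un_act, Category.comp_id]

@[reassoc]
lemma act_ext {X Y : T.C} (x : X ⟶ H ⊗ Y) : act H X ≫ ext x = H ◁ ext x ≫ act H Y := by
  rw [ext, act_nat_assoc, act_act, whiskerLeft_comp, Category.assoc]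

@[reassoc]
lemma ext_ext {X Y Z : T.C} (x : X ⟶ H ⊗ Y) (y : Y ⟶ H ⊗ Z) : ext x ≫ ext y = ext (x ≫ ext y) := by
  rw [ext, Category.assoc, act_ext, ← whiskerLeft_comp_assoc]; rfl

lemma ext_zero (X Y : T.C) : ext (0 : X ⟶ H ⊗ Y) = 0 := by
  rw [ext, MonoidalPreadditive.whiskerLeft_zero, zero_comp]

lemma ext_sub {X Y : T.C} (x y : X ⟶ H ⊗ Y) : ext (x - y) = ext x - ext y := by
  rw [ext, P251.S.wl_sub, Preadditive.sub_comp]; rfl

/-- an `H`-linear map is the extension of its restriction -/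
lemma ext_un {X Y : T.C} (β : H ⊗ X ⟶ H ⊗ Y) (h : act H X ≫ β = H ◁ β ≫ act H Y) :
    ext (un H X ≫ β) = β := by
  rw [ext, whiskerLeft_comp, Category.assoc, ← h, wl_un_act_assoc]

lemma three_un (hH : IsHF 3 η[H]) (X : T.C) {m : ℤ} (hm : (3 : ℤ) ∣ m) : m • un H X = 0 := by
  have h : (m • η[H]) ▷ X = m • η[H] ▷ X := (tensorRight X).map_zsmul
  rw [un, ← Preadditive.comp_zsmul, ← h, (hH.ord m).2 (by exact_mod_cast hm),
    MonoidalPreadditive.zero_whiskerRight, comp_zero]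

lemma three_smul (hH : IsHF 3 η[H]) {X Y : T.C} (x : X ⟶ H ⊗ Y) : 3 • x = 0 := by
  rw [← un_ext x, ← natCast_zsmul, ← Preadditive.zsmul_comp, three_un hH X (by simp), zero_comp]

omit [MonObj H] in
/-- maps from a sphere to a suspension -/
lemma hom_shift (Z : T.C) (n k : ℤ) : Nonempty ((sph T (k - n) ⟶ Z) ≃+ (sph T k ⟶ Z⟦n⟧)) := by
  have e : sph T k ≅ (sph T (k - n))⟦n⟧ := (shiftFunctorAdd' T.C (k - n) n k (by ring)).app _
  refine ⟨AddEquiv.ofBijective (AddMonoidHom.mk' (fun g => e.hom ≫ g⟦n⟧')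
    fun a b => by rw [Functor.map_add, Preadditive.comp_add]) ⟨fun a b h => ?_, fun f => ?_⟩⟩
  · exact (shiftFunctor T.C n).map_injective ((cancel_epi e.hom).1 h)
  · obtain ⟨g, hg⟩ := (shiftFunctor T.C n).map_surjective (e.inv ≫ f)
    exact ⟨g, by change e.hom ≫ g⟦n⟧' = f; rw [hg, e.hom_inv_id_assoc]⟩

lemma conc (hH : IsHF 3 η[H]) {k n : ℤ} (h : n ≠ k) (g : sph T k ⟶ H ⊗ sph T n) : g = 0 := by
  obtain ⟨e⟩ := hom_shift H n k
  obtain ⟨g', hg⟩ := e.surjective (g ≫ (P251.M.tensorUnitShiftIso H n).hom)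
  rw [hH.conc (k - n) (by omega) g', map_zero] at hg
  rw [← cancel_mono (P251.M.tensorUnitShiftIso H n).hom, ← hg, zero_comp]

lemma un_ne_zero (hH : IsHF 3 η[H]) (n : ℤ) : un H (sph T n) ≠ 0 := by
  intro h
  have h1 : η[H] ▷ sph T n = 0 := by
    rw [← cancel_epi (λ_ (sph T n)).inv, comp_zero]; exact h
  have e : sph T n ⊗ sph T (-n) ≅ 𝟙_ T.C :=
    P251.M.tensorUnitShiftIso _ _ ≪≫ (shiftFunctorCompIsoId T.C n (-n) (by ring)).app _
  have h2 : η[H] ▷ (sph T n ⊗ sph T (-n)) = 0 := by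
    rw [whiskerRight_tensor, h1, MonoidalPreadditive.zero_whiskerRight, zero_comp, comp_zero]
  have h3 : η[H] ▷ 𝟙_ T.C = 0 := by
    rw [← cancel_epi (𝟙_ T.C ◁ e.hom), whisker_exchange, h2, zero_comp, comp_zero]
  have h4 : η[H] = 0 := by
    rw [← cancel_epi (ρ_ (𝟙_ T.C)).hom, ← rightUnitor_naturality, h3, zero_comp, comp_zero]
  have h5 := (hH.ord 1).1 (by rw [h4, smul_zero])
  norm_num at h5

lemma gen (hH : IsHF 3 η[H]) (n : ℤ) (g : sph T n ⟶ H ⊗ sph T n) :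
    ∃ m : ℤ, g = m • un H (sph T n) := by
  let c := P251.M.tensorUnitShiftIso H n
  let v : sph T n ⟶ H ⊗ sph T n := η[H]⟦n⟧' ≫ c.inv
  have hv : ∀ g : sph T n ⟶ H ⊗ sph T n, ∃ m : ℤ, g = m • v := fun g => by
    obtain ⟨g', hg⟩ := (shiftFunctor T.C n).map_surjective (g ≫ c.hom)
    obtain ⟨m, rfl⟩ := hH.gen g'
    refine ⟨m, ?_⟩
    rw [← Preadditive.zsmul_comp, ← Functor.map_zsmul, hg, Category.assoc, c.hom_inv_id,
      Category.comp_id]
  have h3 : ∀ m : ℤ, (3 : ℤ) ∣ m → m • v = 0 := by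
    rintro _ ⟨m, rfl⟩
    have := three_smul hH v
    rw [← natCast_zsmul] at this
    rw [mul_comm, mul_smul]
    exact (congrArg (m • ·) this).trans (smul_zero m)
  obtain ⟨a, ha⟩ := hv (un H (sph T n))
  obtain ⟨m, rfl⟩ := hv g
  have hna : ¬ (3 : ℤ) ∣ a := fun h => un_ne_zero hH n (ha.trans (h3 a h))
  refine ⟨m * a, ?_⟩
  rw [ha, smul_smul, ← sub_eq_zero, ← sub_smul]
  apply h3
  have : (3 : ℤ) ∣ 1 - a * a := by
    obtain ⟨q, rfl | rfl⟩ : ∃ q, a = 3 * q + 1 ∨ a = 3 * q + 2 := ⟨a / 3, by omega⟩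
    · exact ⟨-(3 * q * q + 2 * q), by ring⟩
    · exact ⟨-(3 * q * q + 4 * q + 1), by ring⟩
  exact (show m - m * a * a = m * (1 - a * a) by ring) ▸ this.mul_left m

/-- `H ∧ Y` is the free `H`-module on a basis of its homotopy groups. -/
theorem exists_basis (hH : IsHF 3 η[H]) (Y : T.C) :
    ∃ (J : ℤ → Type) (x : ∀ k, J k → (sph T k ⟶ H ⊗ Y)),
      IsIso (Sigma.desc fun j : Σ k, J k => ext (x j.1 j.2)) ∧
      (∀ k, Function.Injective (x k)) ∧ (∀ k j, x k j ≠ 0) ∧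
      ∀ k (P : AddSubgroup (sph T k ⟶ H ⊗ Y)), (∀ j, x k j ∈ P) → ∀ v, v ∈ P := by
  classical
  choose J x hinj hne hind hspan using fun k => exists_basis_grp (sph T k ⟶ H ⊗ Y) (three_smul hH)
  refine ⟨J, x, P251.M.isIso_of_bijective_hom (sph T) (fun k k' h => ?_)
    P251.T.StableCat.generator _ (fun k f hf => ?_) (fun k y => ?_), hinj, hne, hspan⟩
  · exact ⟨((shiftFunctorAdd' T.C k 1 k' h).app _).symm⟩
  · obtain ⟨s, g, rfl⟩ := P251.S.compact_sum _ (P251.S.isSphere_one_shift k) f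
    choose m hm using fun b : J k => gen hH k (g ⟨k, b⟩)
    have h0 : ∀ j : Σ k, J k, j ∉ Set.range (Sigma.mk k) → g j = 0 := fun j hj =>
      conc hH (fun h => hj (by obtain ⟨k', b⟩ := j; obtain rfl : k' = k := h; exact ⟨b, rfl⟩)) _
    rw [Preadditive.sum_comp, ← Finset.sum_preimage (Sigma.mk k) s sigma_mk_injective.injOn _
      fun j _ hj => by rw [h0 j hj, zero_comp, zero_comp]] at hf
    have h1 := hind k _ m (by
      rw [← hf]
      refine Finset.sum_congr rfl fun b _ => ?_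
      rw [Category.assoc, Sigma.ι_desc, hm, Preadditive.zsmul_comp, un_ext])
    refine Finset.sum_eq_zero fun j hj => ?_
    by_cases h : j ∈ Set.range (Sigma.mk k)
    · obtain ⟨b, rfl⟩ := h
      rw [hm, three_un hH _ (h1 b (Finset.mem_preimage.2 hj)), zero_comp]
    · rw [h0 j h, zero_comp]
  · refine hspan k (Preadditive.rightComp _ _).range (fun b => ?_) y
    refine ⟨un H _ ≫ Sigma.ι (fun j : Σ k, J k => H ⊗ sph T j.1) ⟨k, b⟩, ?_⟩
    change (_ ≫ _) ≫ _ = _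
    rw [Category.assoc, Sigma.ι_desc, un_ext]

omit [MonObj H] in
lemma locFin {Z : T.C} (hZ : FT Z) {J : ℤ → Type} (x : ∀ k, J k → (sph T k ⟶ Z))
    (hinj : ∀ k, Function.Injective (x k)) (hne : ∀ k j, x k j ≠ 0) (k : ℤ) :
    {j : Σ k, J k | j.1 ≤ k}.Finite := by
  obtain ⟨⟨N, hN⟩, hfin⟩ := hZ
  have : ∀ k, Finite (J k) := fun k => Finite.of_injective _ (hinj k)
  refine ((Set.finite_Icc N k).biUnion fun l _ => Set.finite_range (Sigma.mk l)).subset ?_
  rintro ⟨l, b⟩ hl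
  refine Set.mem_biUnion (x := l) ⟨?_, hl⟩ ⟨b, rfl⟩
  by_contra h
  exact hne l b (hN l (not_le.1 h) _)

omit [MonObj H] in
/-- a locally finite sum of suspensions of an object of finite type is of finite type -/
lemma ft_of_sum {Z W : T.C} (hZ : FT Z) {J : Type} (n : J → ℤ) (hn : ∀ k, {j | n j ≤ k}.Finite)
    (X : J → T.C) (c : ∀ j, X j ≅ Z⟦n j⟧) (φ : ∀ j, X j ⟶ W)
    (h : ∀ (k : ℤ) (f : sph T k ⟶ W), ∃ (s : Finset J) (g : ∀ j, sph T k ⟶ X j),
      f = ∑ j ∈ s, g j ≫ φ j) : FT W := by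
  classical
  obtain ⟨⟨N, hN⟩, hfin⟩ := hZ
  have hX : ∀ j, P251.M.Conn (N + n j) (X j) := fun j => (hN.shift (n j) _ rfl).of_iso (c j).symm
  obtain ⟨B, hB⟩ := ((hn 0).image n).bddBelow
  refine ⟨⟨N + min B 0, fun k hk f => ?_⟩, fun k => ?_⟩
  · obtain ⟨s, g, rfl⟩ := h k f
    refine Finset.sum_eq_zero fun j _ => ?_
    have : min B 0 ≤ n j := by
      by_cases h0 : n j ≤ 0
      · exact (min_le_left _ _).trans (hB ⟨j, h0, rfl⟩)
      · omega
    rw [hX j k (by omega) (g j), zero_comp]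
  · have hf : ∀ j, Finite (sph T k ⟶ X j) := fun j => by
      obtain ⟨e⟩ := hom_shift Z (n j) k
      have : Finite (sph T k ⟶ Z⟦n j⟧) := Finite.of_equiv _ e.toEquiv
      exact Finite.of_injective (fun g => g ≫ (c j).hom) fun a b hab => (cancel_mono _).1 hab
    refine Finite.of_surjective (fun g : ∀ j : (hn (k - N)).toFinset, sph T k ⟶ X j =>
      ∑ j, g j ≫ φ j) fun f => ?_
    obtain ⟨s, g, rfl⟩ := h k f
    refine ⟨fun j => if j.1 ∈ s then g j else 0, ?_⟩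
    change ∑ j : (hn (k - N)).toFinset, (if j.1 ∈ s then g j else 0) ≫ φ j = _
    rw [Finset.sum_coe_sort (hn (k - N)).toFinset fun j => (if j ∈ s then g j else 0) ≫ φ j]
    refine Finset.sum_congr_of_eq_on_inter (fun j _ hj => ?_) (fun j _ hj => ?_)
      fun j _ hj => by rw [if_pos hj]
    · rw [if_neg hj, zero_comp]
    · rw [Set.Finite.mem_toFinset, Set.mem_ofPred_eq] at hj
      rw [hX j k (by omega) (g j), zero_comp]

/-- `H`-linear maps out of a free module with prescribed values on the basis -/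
lemma exists_ext {Y Z : T.C} {J : Type} {X : J → T.C} (x : ∀ j, X j ⟶ H ⊗ Y)
    [IsIso (Sigma.desc fun j => ext (x j))] (y : ∀ j, X j ⟶ H ⊗ Z) :
    ∃ α : Y ⟶ H ⊗ Z, ∀ j, x j ≫ ext α = y j := by
  let β : H ⊗ Y ⟶ H ⊗ Z := inv (Sigma.desc fun j => ext (x j)) ≫ Sigma.desc fun j => ext (y j)
  have hβ : ∀ j, ext (x j) ≫ β = ext (y j) := fun j => by
    rw [← Sigma.ι_desc (fun j => ext (x j)) j, Category.assoc, IsIso.hom_inv_id_assoc,
      Sigma.ι_desc]
  have hl : act H Y ≫ β = H ◁ β ≫ act H Z := by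
    have : (tensorLeft H).IsLeftAdjoint := ⟨_, ⟨ihom.adjunction H⟩⟩
    rw [← cancel_epi (H ◁ Sigma.desc fun j => ext (x j)),
      ← cancel_epi (sigmaComparison (tensorLeft H) fun j => H ⊗ X j)]
    refine Sigma.hom_ext _ _ fun j => ?_
    rw [ι_comp_sigmaComparison_assoc, ι_comp_sigmaComparison_assoc]
    change H ◁ _ ≫ _ = H ◁ _ ≫ _
    rw [← whiskerLeft_comp_assoc, ← whiskerLeft_comp_assoc, Sigma.ι_desc, ← act_ext_assoc, hβ,
      act_ext, ← whiskerLeft_comp_assoc, hβ]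
  exact ⟨un H Y ≫ β, fun j => by rw [ext_un β hl, ← un_ext (x j), Category.assoc, hβ, un_ext]⟩

/-- `H`-linear maps out of a free module are determined by their values on the basis -/
lemma eq_of_ext {Y Z : T.C} {J : Type} {X : J → T.C} (x : ∀ j, X j ⟶ H ⊗ Y)
    [IsIso (Sigma.desc fun j => ext (x j))] (α α' : Y ⟶ H ⊗ Z)
    (h : ∀ j, x j ≫ ext α = x j ≫ ext α') : α = α' := by
  rw [← un_ext α, ← un_ext α']
  congr 1
  rw [← cancel_epi (Sigma.desc fun j => ext (x j))]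
  refine Sigma.hom_ext _ _ fun j => ?_
  rw [Sigma.ι_desc_assoc, Sigma.ι_desc_assoc, ext_ext, ext_ext, h]

/-- Universal coefficients: `[Y, H ∧ S^t]` is the dual of `π_t (H ∧ Y)`. -/
theorem dual (hH : IsHF 3 η[H]) (Y : T.C) (t : ℤ)
    (φ : (sph T t ⟶ H ⊗ Y) →+ (sph T t ⟶ H ⊗ sph T t)) :
    ∃! α : Y ⟶ H ⊗ sph T t, ∀ a, φ a = a ≫ ext α := by
  obtain ⟨J, x, hx, -, -, hspan⟩ := exists_basis hH Y
  obtain ⟨ψ, hψ⟩ : ∃ ψ : ∀ k, (sph T k ⟶ H ⊗ Y) → (sph T k ⟶ H ⊗ sph T t), ψ t = φ :=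
    ⟨Function.update (fun _ _ => 0) t φ, Function.update_self ..⟩
  obtain ⟨α, hα⟩ := exists_ext (fun j : Σ k, J k => x j.1 j.2) fun j => ψ j.1 (x j.1 j.2)
  have h : ∀ a, φ a = a ≫ ext α :=
    hspan t (φ.eqLocus (Preadditive.rightComp _ (ext α))) fun b => by
      change φ _ = _ ≫ _
      rw [hα ⟨t, b⟩, hψ]
  refine ⟨α, h, fun α' h' => eq_of_ext (fun j : Σ k, J k => x j.1 j.2) _ _ ?_⟩
  rintro ⟨k, b⟩
  by_cases hk : t = k
  · subst hk
    exact (h' _).symm.trans (h _)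
  · exact (conc hH hk _).trans (conc hH hk _).symm

end Free

theorem rowD1 : RowD1 := by
  intro T H _ hH Y hY
  obtain ⟨J, x, hx, hinj, hne, -⟩ := Free.exists_basis hH Y
  refine ⟨Σ k, J k, fun j => j.1,
    fun j => (P251.M.tensorUnitShiftIso H j.1).inv ≫ Free.ext (x j.1 j.2), ?_,
    Free.locFin hY x hinj hne⟩
  have h : (Sigma.desc fun j : Σ k, J k =>
      (P251.M.tensorUnitShiftIso H j.1).inv ≫ Free.ext (x j.1 j.2)) =
      (Limits.Sigma.mapIso fun j : Σ k, J k => P251.M.tensorUnitShiftIso H j.1).inv ≫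
        Sigma.desc fun j : Σ k, J k => Free.ext (x j.1 j.2) :=
    Sigma.hom_ext _ _ fun j => by simp
  rw [h]
  infer_instance

theorem rowD2 : RowD2 := by
  intro T H _ hH Y Y' hY hY'
  obtain ⟨J, n, i, hi, hn⟩ := rowD1 T H hH Y hY
  refine Free.ft_of_sum hY' n hn (fun j => H⟦n j⟧ ⊗ Y')
    (fun j => β_ _ _ ≪≫ P251.M.tensorShiftIso Y' H (n j) ≪≫ (shiftFunctor _ _).mapIso (β_ _ _))
    (fun j => i j ▷ Y' ≫ (α_ H Y Y').hom) fun k f => ?_
  obtain ⟨s, g, hg⟩ := P251.S.compact_sumR Y' (fun j => H⟦n j⟧) (P251.S.isSphere_one_shift k)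
    (f ≫ (α_ H Y Y').inv ≫ inv (Sigma.desc i) ▷ Y')
  refine ⟨s, g, ?_⟩
  have h : f = (f ≫ (α_ H Y Y').inv ≫ inv (Sigma.desc i) ▷ Y') ≫ Sigma.desc i ▷ Y' ≫
      (α_ H Y Y').hom := by simp
  rw [h, hg, Preadditive.sum_comp]
  refine Finset.sum_congr rfl fun j _ => ?_
  rw [Category.assoc, ← comp_whiskerRight_assoc, Sigma.ι_desc]

theorem rowD3 : RowD3 := by
  intro T H _ hH hHH t
  refine ⟨hHH.2 t, fun φ => ?_⟩
  have h : ∀ a (α : H ⟶ H ⊗ sph T t), pair a α = a ≫ Free.ext α := fun a α => by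
    simp [pair, Free.ext, Free.act]
  simp only [h]
  exact Free.dual hH H t φ

end Vale.Agent.Q236
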