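import Vale.Agent.Q236.Exact
import Vale.Agent.Q236.Fin
import Vale.Agent.Q236.Free
import Vale.Agent.P236K.St.Coc

/-!
# P236, literal `Ext`: the final statement from the rows
-/

open CategoryTheory MonoidalCategory MonObj Limits Pretriangulated

set_option backward.isDefEq.respectTransparency false

namespace Vale.Agent.Q236

open Vale.Agent.P251.St Vale.Agent.P251.St.SHCat Vale.Agent.P236Z.St Vale.Agent.P236K.St
  Vale.Agent.P251.M Vale.Agent.P251.S Vale.Agent.P251.I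

variable {T : SHCat} {H : T.C} [MonObj H]

section tower

variable (A : AdamsTower η[H]) {n : ℤ}

theorem bd_add {x y : sph T n ⟶ H ⊗ A.X 2} (hx : A.IsBoundary 2 x) (hy : A.IsBoundary 2 y)
    (c : ℤ) : A.IsBoundary 2 (x + c • y) := by
  obtain ⟨a, ha, rfl⟩ := hx
  obtain ⟨b, hb, rfl⟩ := hy
  refine ⟨a + c • b, ?_, ?_⟩
  · change (a + c • b) ≫ _ = 0
    rw [Preadditive.add_comp, Preadditive.zsmul_comp]
    exact (congrArg₂ (fun u v => u + c • v) ha hb).trans (by rw [smul_zero, add_zero])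
  · change (a + c • b) ≫ _ = _
    rw [Preadditive.add_comp, Preadditive.zsmul_comp]

/-- a `d_1`-boundary is a boundary and is killed by the connecting map -/
theorem bd_of_d₁ {t : ℤ} (c : sph T t ≅ sus (sus (sph T n))) (x : sph T n ⟶ H ⊗ A.X 2)
    (y : sph T t ⟶ (adams A).Q 1)
    (h : y ≫ (adams A).δ 1 = c.hom ≫ (x⟦(1 : ℤ)⟧')⟦(1 : ℤ)⟧') :
    A.IsBoundary 2 x ∧ x ≫ A.d 2 = 0 := by
  rw [adams_δ] at h
  obtain ⟨y', hy'⟩ := (shiftFunctor T.C (1 : ℤ)).map_surjective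
    (c.inv ≫ (y : sph T t ⟶ (H ⊗ A.X 1)⟦(1 : ℤ)⟧))
  obtain ⟨w, hw⟩ := (shiftFunctor T.C (1 : ℤ)).map_surjective (y' ≫ A.d 1)
  have h1 : x = w ≫ un η[H] (A.X 2) := by
    apply (shiftFunctor T.C (1 : ℤ)).map_injective
    apply (shiftFunctor T.C (1 : ℤ)).map_injective
    rw [← cancel_epi c.hom, ← h, Functor.map_comp _ w, hw, Category.assoc, Functor.map_comp _ y',
      hy', Category.assoc, Iso.hom_inv_id_assoc]
    rfl
  have h2 : w ≫ A.g 1 = 0 := by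
    apply (shiftFunctor T.C (1 : ℤ)).map_injective
    rw [Functor.map_comp, hw, Category.assoc, (dist' A 1).zero₃₁, comp_zero, Functor.map_zero]
  refine ⟨⟨w, ?_, ?_⟩, ?_⟩
  · change w ≫ A.g 1 ≫ A.toSphere 1 = 0
    rw [reassoc_of% h2, zero_comp]
  · rw [h1, hur_un]
  · rw [h1, Category.assoc, (dist' A 2).zero₂₃, comp_zero]

theorem survives_iff {x y : sph T n ⟶ H ⊗ A.X 2} (h : A.IsBoundary 2 (x - y))
    (h' : (x - y) ≫ A.d 2 = 0) : Survives A x ↔ Survives A y := by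
  have h1 : x ≫ A.d 2 = y ≫ A.d 2 := by rwa [Preadditive.sub_comp, sub_eq_zero] at h'
  refine and_congr (forall_congr' fun r => exists_congr fun z => ?_) (not_congr ⟨fun hx => ?_,
    fun hy => ?_⟩)
  · change _ = x ≫ A.d 2 ↔ _ = y ≫ A.d 2
    rw [h1]
  · simpa using bd_add A hx h (-1)
  · simpa using bd_add A hy h 1

theorem detects_of {x y : sph T n ⟶ H ⊗ A.X 2} (h : A.IsBoundary 2 (x - y))
    {θ : sph T n ⟶ T.one} (hy : Detects A y θ) : Detects A x θ := by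
  obtain ⟨h1, w, c, hc, hw, hb⟩ := hy
  refine ⟨h1, w, c, hc, hw, ?_⟩
  have h2 := bd_add A hb h (-c)
  rwa [neg_smul, smul_sub, neg_sub, sub_add_sub_cancel] at h2

end tower

omit [MonObj H] in
theorem Computes.sub {K : Cx T} (hK : Computes H K) {s : ℕ} {t : ℤ} {z z' : sph T t ⟶ K.Q s}
    {x : ExtA H s t} (h : Cls H K z x) (h' : Cls H K z' x) : Cls H K (z - z') 0 := by
  have h0 : z ≫ K.δ s = 0 := (hK.cls s t z).1 ⟨x, h⟩
  have h0' : z' ≫ K.δ s = 0 := (hK.cls s t z').1 ⟨x, h'⟩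
  obtain ⟨y, hy⟩ := (hK.cls s t (z - z')).2 (by
    change (z - z') ≫ _ = 0
    rw [Preadditive.sub_comp, h0, h0', sub_self])
  have h1 := hK.add s t _ _ _ _ hy h'
  rw [sub_add_cancel] at h1
  obtain rfl : y = 0 := add_eq_right.1 (hK.uniq s t z _ _ h1 h)
  exact hy

omit [MonObj H] in
theorem card_coh {e : T.one ⟶ H} (hH : IsHF 3 e) (t k : ℤ) :
    Nat.card (((coh H).obj (Opposite.op (sph T t))).obj.obj k) = if k = t then 3 else 1 := by
  change Nat.card (sph T t ⟶ H⟦k⟧) = _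
  split_ifs with h
  · subst h
    have h1 : AddSubgroup.zmultiples e = ⊤ := eq_top_iff.2 fun g _ => by
      obtain ⟨m, rfl⟩ := hH.gen g
      exact ⟨m, rfl⟩
    have h2 : addOrderOf e = 3 := by
      have : Fact (Nat.Prime 3) := ⟨Nat.prime_three⟩
      refine addOrderOf_eq_prime ?_ fun h => ?_
      · rw [← natCast_zsmul]
        exact (hH.ord _).2 dvd_rfl
      · exact absurd ((hH.ord 1).1 (by rw [h, smul_zero])) (by norm_num)
    rw [← Nat.card_eq_of_bijective _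
      ((Functor.FullyFaithful.ofFullyFaithful (shiftFunctor T.C k)).map_bijective T.one H),
      ← h2, ← Nat.card_zmultiples, h1, AddSubgroup.card_top]
  · exact Nat.card_eq_one_iff_unique.2
      ⟨⟨fun a b => (conc hH k t h a).trans (conc hH k t h b).symm⟩, ⟨0⟩⟩

variable [IsCommMonObj H]

theorem cob_cocycle (S : Susp T) (hH : IsHF 3 η[H]) (ξ : sph T 4 ⟶ H ⊗ H) (j : ℕ) :
    cob ξ j ≫ (cod H 2 : H ⊗ (H ⊗ H) ⟶ H ⊗ (H ⊗ (H ⊗ H))) = 0 := by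
  have := locallySmall_self.{0} T.C
  obtain ⟨D, hU⟩ := exists_MU T S
  obtain ⟨u, _⟩ := P236Z.Dt.exists_thom D hH.conc
  obtain ⟨m, h⟩ := exists_zsmul hU (isHF' hH) u ((s4 T).hom ≫ ξ)
  have h1 := coc_cobR hU (isHF' hH) u m j _ ((of_cob ξ j).trans (by rw [h]))
  have h2 : (cod H 2 : H ⊗ (H ⊗ H) ⟶ H ⊗ (H ⊗ (H ⊗ H))) = inrM H (H ⊗ (H ⊗ H)) -
      (H ◁ inrM H (H ⊗ H) - (H ◁ (H ◁ inrM H H) - H ◁ (H ◁ inlM H H))) := by
    have e : ∀ {X Y : T.C} (f g : X ⟶ Y), H ◁ (f - g) = H ◁ f - H ◁ g :=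
      fun _ _ => (tensorLeft H).map_sub
    rw [cod_succ, cod_succ, cod_zero, Category.id_comp, Category.id_comp, e, e, e]
    rfl
  rw [← cancel_epi (bigIso T (j + 1)).hom, comp_zero, ← Category.assoc, h2, Preadditive.comp_sub,
    Preadditive.comp_sub, Preadditive.comp_sub, sub_eq_zero, ← sub_add, eq_comm, sub_add_eq_add_sub,
    sub_eq_iff_eq_add]
  exact h1.symm

/-- the final statement -/
def FIN : Prop :=
  ∀ (T : SHCat) (_ : Susp T),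
    (∃ (H : T.C) (_ : MonObj H) (_ : IsCommMonObj H), IsHF 3 η[H]) ∧
    ∀ (H : T.C) [MonObj H] [IsCommMonObj H], IsHF 3 η[H] →
      (∀ t k : ℤ, Nat.card (((coh H).obj (Opposite.op (sph T t))).obj.obj k) =
        if k = t then 3 else 1) ∧
      Dual H ∧ Kun H ∧ Computes H (cobar H) ∧ Nonempty (AdamsTower η[H]) ∧
      (∀ A : AdamsTower η[H], Computes H (adams A)) ∧
      (∃ ξ : Hom (sph T 4) (ten H H), ξ ≠ 0 ∧ ∀ g : Hom (sph T 4) (ten H H), ∃ m : ℤ, g = m • ξ) ∧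
      ∀ ξ : Hom (sph T 4) (ten H H), ξ ≠ 0 → ∀ j : ℕ,
        Nonempty (sph T (4 * 3 ^ (j + 1)) ≅ bigS T (j + 1)) ∧
        ∀ c : sph T (4 * 3 ^ (j + 1)) ≅ bigS T (j + 1), ∃ b : ExtA H 2 (4 * 3 ^ (j + 1)),
          Cls H (cobar H) (s := 2) (comp c.hom (bj ξ j)) b ∧ b ≠ 0 ∧
          ∀ A : AdamsTower η[H], (∃ z : Hom (sph T (stem j)) (ten H (A.X 2)), Rep A z b) ∧
            ∀ z : Hom (sph T (stem j)) (ten H (A.X 2)), Rep A z b → ¬ A.IsBoundary 2 z ∧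
              (Survives A z ↔ j = 0 ∨ j = 2 ∨ j = 3) ∧
              (Survives A z → ∃ θ : Hom (sph T (stem j)) T.one,
                addOrderOf θ = 3 ∧ Detects A z θ)

theorem fin_of (hB₁ : RowB1) (hB₂ : RowB2) (hK₁ : RowK1) (hK₂ : RowK2) (h : FINAL') : FIN := by
  intro T S
  refine ⟨(h.2 T S).1, fun H _ _ hH => ?_⟩
  obtain ⟨hA, hξ, hm⟩ := (h.2 T S).2 H hH
  have hF := ft_HH S hH
  have hN := neg hH (cellH S hH)
  have hc := hB₁ T H hN (conc hH) _ (fr_cobar rowD1 rowD2 hH hF) ex_cobar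
  have ha := fun A : AdamsTower η[H] =>
    hB₁ T H hN (conc hH) _ (fr_adams A rowD1 rowD2 hH hF) (ex_adams A)
  refine ⟨card_coh hH, rowD3 T H hH hF, hK₁ T H hH, hc, hA, ha, hξ, fun ξ h0 j => ⟨?_, fun c => ?_⟩⟩
  · exact ⟨eqToIso (congrArg (sph T) (by ring)) ≪≫
      ((stdEven T.C).sphIso (Iso.refl _) (2 * 3 ^ (j + 1))).symm ≪≫ bigIso T (j + 1)⟩
  rw [hK₂]
  obtain ⟨b, hb⟩ := (hc.cls 2 _ (c.hom ≫ cob ξ j)).2
    ((Category.assoc _ _ _).trans ((congrArg (c.hom ≫ ·) (cob_cocycle S hH ξ j)).trans comp_zero))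
  have key : ∀ (A : AdamsTower η[H]) (c' : sph T (4 * 3 ^ (j + 1)) ≅ sus (sus (sph T (stem j)))),
      ∃ z, IsB A ξ j z ∧
        Cls H (adams A) (s := 2) (c'.hom ≫ (z⟦(1 : ℤ)⟧')⟦(1 : ℤ)⟧') b := fun A c' => by
    obtain ⟨z₁, h₁⟩ := (shiftFunctor T.C (1 : ℤ)).map_surjective
      ((c'.symm ≪≫ c).hom ≫ cob ξ j ≫ proj A)
    obtain ⟨z, rfl⟩ := (shiftFunctor T.C (1 : ℤ)).map_surjective z₁
    refine ⟨z, ⟨_, h₁⟩, ?_⟩
    have h2 := hB₂ T H hN _ _ (fr_adams A rowD1 rowD2 hH hF) (ex_adams A) (pr A) (e_pr A) (δ_pr A)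
      2 _ _ _ hb
    rw [pr_two] at h2
    rw [h₁, Iso.trans_hom, Iso.symm_hom, Category.assoc, Iso.hom_inv_id_assoc, ← Category.assoc]
    exact h2
  let c₀ := c ≪≫ (cIso T j).symm
  refine ⟨b, hb, ?_, fun A => ⟨?_, fun z ⟨c', hz⟩ => ?_⟩⟩
  · rintro rfl
    obtain ⟨A⟩ := hA
    obtain ⟨z, hz, hz'⟩ := key A c₀
    obtain ⟨y, hy⟩ := ((ha A).ker 1 _ _).1 hz'
    exact ((hm A ξ h0 j).2 z hz).2.1 (bd_of_d₁ A c₀ z y hy).1
  · obtain ⟨z, -, hz⟩ := key A c₀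
    exact ⟨z, c₀, hz⟩
  · obtain ⟨z₀, hz₀, hz₀'⟩ := key A c'
    obtain ⟨y, hy⟩ := ((ha A).ker 1 _ _).1 ((ha A).sub hz hz₀')
    obtain ⟨h1, h2⟩ := bd_of_d₁ A c' (z - z₀) y (by
      rw [Functor.map_sub, Functor.map_sub, Preadditive.comp_sub]
      exact hy)
    obtain ⟨-, h5, h3, h4⟩ := (hm A ξ h0 j).2 z₀ hz₀
    rw [survives_iff A h1 h2]
    exact ⟨fun hz => h5 (by simpa using bd_add A hz h1 (-1)), h3, fun hs =>
      (h4 hs).imp fun θ hθ => ⟨hθ.1, detects_of A h1 hθ.2⟩⟩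

end Vale.Agent.Q236
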