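import Mathlib.Algebra.Homology.ShortComplex.Ab
import Mathlib.CategoryTheory.Abelian.Exact
import Vale.Agent.Q236.Base
import Vale.Agent.P251.S.Coprod

/-!
# P236, literal `Ext`: the homological algebra (rows B1 and B2)
-/

open CategoryTheory MonoidalCategory MonObj Limits Opposite

namespace Vale.Agent.Q236

/-! ### Projective resolutions in an abelian category -/

section general

universe w v u

variable {C : Type u} [Category.{v} C] [Abelian C] {X Y : C}

lemma exists_res (P : ℕ → C) (d : ∀ n, P (n + 1) ⟶ P n) (e : P 0 ⟶ X)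
    (sq : ∀ n, d (n + 1) ≫ d n = 0) (he : d 0 ≫ e = 0) (hP : ∀ n, Projective (P n)) (_ : Epi e)
    (ex₀ : (ShortComplex.mk (d 0) e he).Exact)
    (ex : ∀ n, (ShortComplex.mk (d (n + 1)) (d n) (sq n)).Exact) :
    ∃ (R : ProjectiveResolution X) (i : ∀ n, R.complex.X n ≅ P n),
      R.π.f 0 = (i 0).hom ≫ e ∧
        ∀ n, R.complex.d (n + 1) n ≫ (i n).hom = (i (n + 1)).hom ≫ d n := by
  let K : ChainComplex C ℕ := ChainComplex.of P d sq
  have hd : ∀ n, K.d (n + 1) n = d n := fun n => ChainComplex.of_d P d n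
  have he' : K.d 1 0 ≫ e = 0 := by rw [hd 0]; exact he
  let π : K ⟶ (ChainComplex.single₀ C).obj X := (ChainComplex.toSingle₀Equiv K X).symm ⟨e, he'⟩
  have hπ : π.f 0 = e := ChainComplex.toSingle₀Equiv_symm_apply_f_zero (C := K) (X := X) e he'
  have hq : QuasiIso π := ⟨fun n => by
    cases n with
    | zero =>
      rw [ChainComplex.quasiIsoAt₀_iff, ShortComplex.quasiIso_iff_of_zeros']
      · refine (ShortComplex.exact_and_epi_g_iff_of_iso ?_).2 ⟨ex₀, by assumption⟩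
        refine ShortComplex.isoMk (Iso.refl _) (Iso.refl _) (Iso.refl _) ?_ ?_
        · exact (Category.id_comp _).trans ((hd 0).symm.trans (Category.comp_id _).symm)
        · exact (Category.id_comp _).trans (hπ.symm.trans (Category.comp_id _).symm)
      all_goals rfl
    | succ n =>
      rw [quasiIsoAt_iff_exactAt' _ _ (ChainComplex.exactAt_succ_single_obj _ _),
        HomologicalComplex.exactAt_iff' _ (n + 1 + 1) (n + 1) n (by simp) (by simp)]
      refine (ShortComplex.exact_iff_of_iso ?_).2 (ex n)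
      refine ShortComplex.isoMk (Iso.refl _) (Iso.refl _) (Iso.refl _) ?_ ?_
      · exact (Category.id_comp _).trans ((hd (n + 1)).symm.trans (Category.comp_id _).symm)
      · exact (Category.id_comp _).trans ((hd n).symm.trans (Category.comp_id _).symm)⟩
  refine ⟨{ complex := K, projective := hP, π := π, quasiIso := hq }, fun n => Iso.refl _, ?_, ?_⟩
  · exact hπ.trans (Category.id_comp _).symm
  · exact fun n => (Category.comp_id _).trans ((hd n).trans (Category.id_comp _).symm)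

variable [HasExt.{w} C]

lemma extMk_zero_iff (R : ProjectiveResolution X) (f : R.complex.X 0 ⟶ Y)
    (hf : R.complex.d 1 0 ≫ f = 0) : R.extMk f 1 rfl hf = 0 ↔ f = 0 := by
  refine ⟨fun h => ?_, fun h => by subst h; simp⟩
  simp only [← R.extEquivCohomologyClass.apply_eq_iff_eq,
    ProjectiveResolution.extEquivCohomologyClass_extMk,
    ProjectiveResolution.extEquivCohomologyClass_zero,
    CochainComplex.HomComplex.CohomologyClass.mk_eq_zero_iff] at h
  rw [CochainComplex.HomComplex.Cocycle.toSingleMk_mem_coboundaries_iff _ _ _ _ _ 1 (by simp)] at h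
  obtain ⟨g, hg⟩ := h
  have hz : IsZero (R.cochainComplex.X 1) := R.cochainComplex.isZero_of_isStrictlyLE 0 1
  rw [hz.eq_of_src g 0, comp_zero] at hg
  rw [← cancel_epi (R.cochainComplexXIso (-(0 : ℕ)) 0 rfl).hom, comp_zero]
  exact hg.symm

lemma extMk_transfer (R R' : ProjectiveResolution X) (φ : ∀ n, R'.complex.X n ⟶ R.complex.X n)
    (h0 : φ 0 ≫ R.π.f 0 = R'.π.f 0)
    (hd : ∀ n, φ (n + 1) ≫ R.complex.d (n + 1) n = R'.complex.d (n + 1) n ≫ φ n) {n : ℕ}
    (f : R.complex.X n ⟶ Y) (hf : R.complex.d (n + 1) n ≫ f = 0) (f' : R'.complex.X n ⟶ Y)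
    (e : f' = φ n ≫ f) :
    ∃ hf', R.extMk f (n + 1) rfl hf = R'.extMk f' (n + 1) rfl hf' := by
  subst e
  let ψ : R'.complex ⟶ R.complex :=
    { f := φ
      comm' := fun i j h => by
        obtain rfl : j + 1 = i := h
        exact hd j }
  let Φ : ProjectiveResolution.Hom R' R (𝟙 X) :=
    { hom := ψ
      hom_f_zero_comp_π_f_zero := by
        rw [CategoryTheory.Functor.map_id]
        exact h0.trans (Category.comp_id _).symm }
  have := ProjectiveResolution.mk₀_comp_extMk f (n + 1) rfl hf Φ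
  rw [Abelian.Ext.mk₀_id_comp] at this
  exact ⟨_, this⟩

end general

/-! ### Graded modules over the Steenrod algebra, elementwise -/

open Vale.Agent.P251.St Vale.Agent.P251.St.SHCat Vale.Agent.P236Z.St Vale.Agent.P236K.St

variable {T : SHCat} {H : T.C}

/-- the part of degree `k` of a module -/
abbrev El (M : GMod H) (k : ℤ) : Type := M.obj.obj k

/-- an operation as a morphism of `Ste H` -/
def opn {k l : ℤ} (α : H⟦k⟧ ⟶ H⟦l⟧) : @Quiver.Hom (Ste H) _ k l := InducedCategory.homMk α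

/-- the action of an operation -/
def act (M : GMod H) {k l : ℤ} (α : H⟦k⟧ ⟶ H⟦l⟧) : El M k →+ El M l := (M.obj.map (opn α)).hom

/-- the component of degree `k` of a map of modules -/
def ap {M N : GMod H} (φ : M ⟶ N) (k : ℤ) : El M k →+ El N k := (φ.hom.app k).hom

lemma act_id (M : GMod H) (k : ℤ) (m : El M k) : act M (𝟙 (H⟦k⟧)) m = m := by
  have : M.obj.map (opn (𝟙 (H⟦k⟧))) = 𝟙 _ := M.obj.map_id _
  unfold act
  rw [this]
  rfl

lemma act_comp (M : GMod H) {k l r : ℤ} (α : H⟦k⟧ ⟶ H⟦l⟧) (β : H⟦l⟧ ⟶ H⟦r⟧) (m : El M k) :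
    act M (α ≫ β) m = act M β (act M α m) := by
  have : M.obj.map (opn (α ≫ β)) = M.obj.map (opn α) ≫ M.obj.map (opn β) :=
    M.obj.map_comp (opn α) (opn β)
  unfold act
  rw [this]
  rfl

lemma act_add (M : GMod H) {k l : ℤ} (α β : H⟦k⟧ ⟶ H⟦l⟧) (m : El M k) :
    act M (α + β) m = act M α m + act M β m := by
  have : M.obj.map (opn (α + β)) = M.obj.map (opn α) + M.obj.map (opn β) :=
    M.obj.map_add (f := opn α) (g := opn β)
  unfold act
  rw [this]
  rfl

lemma act_zero (M : GMod H) {k l : ℤ} (m : El M k) : act M (0 : H⟦k⟧ ⟶ H⟦l⟧) m = 0 := by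
  have h := act_add M (0 : H⟦k⟧ ⟶ H⟦l⟧) 0 m
  rw [add_zero] at h
  exact left_eq_add.1 h

lemma ap_act {M N : GMod H} (φ : M ⟶ N) {k l : ℤ} (α : H⟦k⟧ ⟶ H⟦l⟧) (m : El M k) :
    ap φ l (act M α m) = act N α (ap φ k m) :=
  congrArg (fun ψ => ψ.hom m) (φ.hom.naturality (opn α))

lemma ap_comp {M N P : GMod H} (φ : M ⟶ N) (ψ : N ⟶ P) (k : ℤ) (m : El M k) :
    ap (φ ≫ ψ) k m = ap ψ k (ap φ k m) := rfl

lemma ap_ext {M N : GMod H} {φ ψ : M ⟶ N} (h : ∀ k m, ap φ k m = ap ψ k m) : φ = ψ :=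
  ObjectProperty.hom_ext _ (NatTrans.ext (funext fun k => AddCommGrpCat.ext (h k)))

lemma exists_hom {M N : GMod H} (φ : ∀ k, El M k →+ El N k)
    (h : ∀ k l (α : H⟦k⟧ ⟶ H⟦l⟧) m, φ l (act M α m) = act N α (φ k m)) :
    ∃ ψ : M ⟶ N, ∀ k m, ap ψ k m = φ k m :=
  ⟨ObjectProperty.homMk
    { app := fun k => AddCommGrpCat.ofHom (φ k)
      naturality := fun k l α => AddCommGrpCat.ext (h k l α.hom) }, fun _ _ => rfl⟩

lemma surj_of_epi {M N : GMod H} (φ : M ⟶ N) [Epi φ] (k : ℤ) : Function.Surjective (ap φ k) := by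
  have := (additiveFunctor (Ste H)
    AddCommGrpCat.{0}).preservesEpimorphisms_ι_of_isNormalMonoCategory
  have h : Epi ((additiveFunctor (Ste H) AddCommGrpCat.{0}).ι.map φ) := inferInstance
  have h' : Epi (φ.hom.app k) := (NatTrans.epi_iff_epi_app _).1 h k
  exact (AddCommGrpCat.epi_iff_surjective _).1 h'

lemma epi_of_surj {M N : GMod H} (φ : M ⟶ N) (h : ∀ k, Function.Surjective (ap φ k)) : Epi φ :=
  ⟨fun f g e => ap_ext fun k m => by
    obtain ⟨a, rfl⟩ := h k m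
    rw [← ap_comp, ← ap_comp, e]⟩

lemma exact_of_el (S : ShortComplex (GMod H))
    (h : ∀ k (m : El S.X₂ k), ap S.g k m = 0 → ∃ a, ap S.f k a = m) : S.Exact := by
  refine (additiveFunctor (Ste H) AddCommGrpCat.{0}).ι.reflects_exact_of_faithful S ?_
  rw [ShortComplex.exact_iff_isZero_homology]
  refine Functor.isZero _ fun k => ?_
  have : ((S.map (additiveFunctor (Ste H) AddCommGrpCat.{0}).ι).map
      ((evaluation _ _).obj k)).Exact := (ShortComplex.ab_exact_iff _).2 (h k)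
  exact ((ShortComplex.exact_iff_isZero_homology _).1 this).of_iso
    (ShortComplex.mapHomologyIso _ ((evaluation _ _).obj k)).symm

/-- the cohomology of `X` -/
noncomputable abbrev co (H X : T.C) : GMod H := (coh H).obj (op X)

/-- the map induced on cohomology -/
noncomputable abbrev cm (H : T.C) {X Y : T.C} (f : X ⟶ Y) : co H Y ⟶ co H X := (coh H).map f.op

/-- a cohomology class as an element of the module -/
def el {X : T.C} {k : ℤ} : (X ⟶ H⟦k⟧) ≃+ El (co H X) k := AddEquiv.refl _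

lemma act_el {X : T.C} {k l : ℤ} (α : H⟦k⟧ ⟶ H⟦l⟧) (f : X ⟶ H⟦k⟧) :
    act (co H X) α (el f) = el (f ≫ α) := rfl

lemma ap_el {X Y : T.C} (g : X ⟶ Y) {k : ℤ} (f : Y ⟶ H⟦k⟧) :
    ap (cm H g) k (el f) = el (g ≫ f) := rfl

lemma cm_comp {X Y Z : T.C} (f : X ⟶ Y) (g : Y ⟶ Z) : cm H (f ≫ g) = cm H g ≫ cm H f :=
  (coh H).map_comp g.op f.op

lemma cm_add {X Y : T.C} (f g : X ⟶ Y) : cm H (f + g) = cm H f + cm H g :=
  ap_ext fun k m => by
    obtain ⟨a, rfl⟩ := el.surjective m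
    change el ((f + g) ≫ a) = el (f ≫ a) + el (g ≫ a)
    rw [Preadditive.add_comp, map_add]

lemma cm_zero {X Y : T.C} : cm H (0 : X ⟶ Y) = 0 := by
  have h := cm_add (H := H) (0 : X ⟶ Y) 0
  rw [add_zero] at h
  exact left_eq_add.1 h

/-! ### Wedges of suspensions of `H` -/

/-- inclusions and projections of a locally finite wedge of suspensions of `H` -/
structure Wd (H Q : T.C) where
  J : Type
  n : J → ℤ
  i : ∀ j, H⟦n j⟧ ⟶ Q
  p : ∀ j, Q ⟶ H⟦n j⟧
  F : ℤ → Finset J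
  mem : ∀ k j, j ∈ F k ↔ n j ≤ k
  ip : ∀ j, i j ≫ p j = 𝟙 _
  ip' : ∀ a b, a ≠ b → i a ≫ p b = 0
  ext : ∀ (Z : T.C) (f g : Q ⟶ Z), (∀ j, i j ≫ f = i j ≫ g) → f = g
  cpt : ∀ (t : ℤ) (z : sph T t ⟶ Q), (∀ j, z ≫ p j = 0) → z = 0

lemma Fr.wd {Q : T.C} (h : Fr H Q) : Nonempty (Wd H Q) := by
  classical
  obtain ⟨J, n, i, hi, hf⟩ := h
  let q : ∀ b, (∐ fun j => H⟦n j⟧) ⟶ H⟦n b⟧ := fun b =>
    Sigma.desc fun j => if h : j = b then eqToHom (by rw [h]) else 0
  have hi' : ∀ j, i j ≫ inv (Sigma.desc i) = Sigma.ι (fun j => H⟦n j⟧) j := fun j => by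
    rw [IsIso.comp_inv_eq, Sigma.ι_desc]
  have h1 : ∀ j, Sigma.ι (fun j => H⟦n j⟧) j ≫ q j = 𝟙 _ := fun j => by simp [q]
  have h2 : ∀ a b, a ≠ b → Sigma.ι (fun j => H⟦n j⟧) a ≫ q b = 0 := fun a b h => by simp [q, h]
  refine ⟨⟨J, n, i, fun b => inv (Sigma.desc i) ≫ q b, fun k => (hf k).toFinset,
    fun k j => by simp, fun j => ?_, fun a b h => ?_, fun Z f g h => ?_, fun t z h => ?_⟩⟩
  · rw [← Category.assoc, hi', h1]
  · rw [← Category.assoc, hi', h2 a b h]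
  · rw [← cancel_epi (Sigma.desc i)]
    refine Sigma.hom_ext _ _ fun j => ?_
    rw [Sigma.ι_desc_assoc, Sigma.ι_desc_assoc, h j]
  · obtain ⟨s, g, hg⟩ := P251.S.compact_sum (fun j => H⟦n j⟧) (P251.S.isSphere_one_shift t)
      (z ≫ inv (Sigma.desc i))
    have hz : ∀ b ∈ s, g b = 0 := fun b hb => by
      have := h b
      rw [← Category.assoc, hg, Preadditive.sum_comp, Finset.sum_eq_single b] at this
      · rwa [Category.assoc, h1, Category.comp_id] at this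
      · intro a _ hab
        rw [Category.assoc, h2 a b hab, comp_zero]
      · exact fun h => (h hb).elim
    rw [← cancel_mono (inv (Sigma.desc i)), zero_comp, hg]
    exact Finset.sum_eq_zero fun b hb => by rw [hz b hb, zero_comp]

namespace Wd

variable {Q : T.C} (W : Wd H Q) (hN : Neg H)

include hN

lemma van {k : ℤ} {j : W.J} (hj : j ∉ W.F k) (f : H⟦W.n j⟧ ⟶ H⟦k⟧) : f = 0 :=
  hN k _ (lt_of_not_ge fun h => hj ((W.mem k j).2 h)) f

lemma dec {k : ℤ} (f : Q ⟶ H⟦k⟧) : f = ∑ j ∈ W.F k, W.p j ≫ W.i j ≫ f := by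
  refine W.ext _ _ _ fun a => ?_
  rw [Preadditive.comp_sum, Finset.sum_eq_single a]
  · rw [← Category.assoc, W.ip, Category.id_comp]
  · intro b _ hb
    rw [← Category.assoc, W.ip' a b hb.symm, zero_comp]
  · exact fun h => W.van hN h _

lemma hom_ext {M : GMod H} {φ ψ : co H Q ⟶ M}
    (h : ∀ j, ap φ _ (el (W.p j)) = ap ψ _ (el (W.p j))) : φ = ψ :=
  ap_ext fun k m => by
    obtain ⟨f, rfl⟩ := el.surjective m
    rw [W.dec hN f, map_sum, map_sum, map_sum]
    refine Finset.sum_congr rfl fun j _ => ?_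
    rw [← act_el, ap_act, ap_act, h]

lemma hom_ex {M : GMod H} (m : ∀ j, El M (W.n j)) :
    ∃ φ : co H Q ⟶ M, ∀ j, ap φ _ (el (W.p j)) = m j := by
  classical
  let φ : ∀ k, El (co H Q) k →+ El M k := fun k => AddMonoidHom.mk'
    (fun x => ∑ j ∈ W.F k, act M (W.i j ≫ el.symm x) (m j)) fun x y => by
      rw [← Finset.sum_add_distrib]
      refine Finset.sum_congr rfl fun j _ => ?_
      rw [map_add, Preadditive.comp_add, act_add]
  have hφ : ∀ k (f : Q ⟶ H⟦k⟧), φ k (el f) = ∑ j ∈ W.F k, act M (W.i j ≫ f) (m j) :=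
    fun _ _ => rfl
  obtain ⟨ψ, hψ⟩ := exists_hom φ fun k l α x => by
    obtain ⟨f, rfl⟩ := el.surjective x
    rw [act_el, hφ, hφ, map_sum]
    simp only [← act_comp, Category.assoc]
    rw [← Finset.sum_subset (Finset.inter_subset_left (s₁ := W.F l) (s₂ := W.F k)),
      ← Finset.sum_subset (Finset.inter_subset_right (s₁ := W.F l) (s₂ := W.F k))]
    · intro j hj hj'
      have : j ∉ W.F l := fun h => hj' (Finset.mem_inter.2 ⟨h, hj⟩)
      rw [W.van hN this (W.i j ≫ f ≫ α), act_zero]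
    · intro j hj hj'
      have : j ∉ W.F k := fun h => hj' (Finset.mem_inter.2 ⟨hj, h⟩)
      rw [← Category.assoc, W.van hN this (W.i j ≫ f), zero_comp, act_zero]
  refine ⟨ψ, fun b => ?_⟩
  rw [hψ, hφ, Finset.sum_eq_single b]
  · rw [W.ip, act_id]
  · intro a _ ha
    rw [W.ip' a b ha, act_zero]
  · exact fun h => (h ((W.mem _ _).2 le_rfl)).elim

include W

lemma projective : Projective (co H Q) := ⟨fun {E X} f e _ => by
  choose m hm using fun j => surj_of_epi e (W.n j) (ap f _ (el (W.p j)))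
  obtain ⟨φ, hφ⟩ := W.hom_ex hN m
  exact ⟨φ, W.hom_ext hN fun j => by rw [ap_comp, hφ, hm]⟩⟩

omit hN in
lemma cm_eq_zero {t : ℤ} (z : sph T t ⟶ Q) (h : cm H z = 0) : z = 0 :=
  W.cpt t z fun j => by
    have := ap_el z (W.p j)
    rw [h] at this
    exact el.injective (this.symm.trans (map_zero el).symm)

lemma cm_surj (hC : Conc H) {t : ℤ} (φ : co H Q ⟶ co H (sph T t)) :
    ∃ z : sph T t ⟶ Q, cm H z = φ := by
  let m : ∀ j, sph T t ⟶ H⟦W.n j⟧ := fun j => el.symm (ap φ _ (el (W.p j)))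
  refine ⟨∑ j ∈ W.F t, m j ≫ W.i j, W.hom_ext hN fun b => ?_⟩
  rw [ap_el, Preadditive.sum_comp, Finset.sum_eq_single b]
  · rw [Category.assoc, W.ip, Category.comp_id]
    rfl
  · intro a _ ha
    rw [Category.assoc, W.ip' a b ha, comp_zero]
  · intro h
    rw [hC _ t (fun e => h ((W.mem _ _).2 e.le)) (m b), zero_comp, zero_comp]

end Wd

/-! ### The rows -/

/-- `R` is the resolution given by the cohomology of `K` -/
def IsRes (K : Cx T) (R : ProjectiveResolution (co H T.one))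
    (i : ∀ n, R.complex.X n ≅ co H (K.Q n)) : Prop :=
  R.π.f 0 = (i 0).hom ≫ cm H K.e ∧
    ∀ n, R.complex.d (n + 1) n ≫ (i n).hom = (i (n + 1)).hom ≫ cm H (K.δ n)

lemma exists_isRes (hN : Neg H) (K : Cx T) (hF : ∀ n, Fr H (K.Q n)) (hE : Ex H K) :
    ∃ R i, IsRes (H := H) K R i := by
  refine exists_res (fun n => co H (K.Q n)) (fun n => cm H (K.δ n)) (cm H K.e)
    (fun n => by rw [← cm_comp, hE.sq, cm_zero]) (by rw [← cm_comp, hE.e_δ, cm_zero])
    (fun n => (hF n).wd.elim fun W => W.projective hN) (epi_of_surj _ fun k m => ?_)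
    (exact_of_el _ fun k m h => ?_) fun n => exact_of_el _ fun k m h => ?_
  · obtain ⟨f, rfl⟩ := el.surjective m
    obtain ⟨g, rfl⟩ := hE.surj k f
    exact ⟨el g, rfl⟩
  · obtain ⟨g, hg⟩ := hE.ex₀ k m h
    exact ⟨el g, hg⟩
  · obtain ⟨g, hg⟩ := hE.ex n k m h
    exact ⟨el g, hg⟩

/-- change of resolution along a map of complexes -/
lemma IsRes.transfer {K K' : Cx T} {R R' : ProjectiveResolution (co H T.one)} {i i'}
    (h : IsRes K R i) (h' : IsRes K' R' i') (p : ∀ n, K.Q n ⟶ K'.Q n) (p₀ : K.e ≫ p 0 = K'.e)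
    (hp : ∀ n, K.δ n ≫ p (n + 1) = p n ≫ K'.δ n) {s : ℕ} {t : ℤ} (z : sph T t ⟶ K.Q s) (hz) :
    ∃ hz', R.extMk ((i s).hom ≫ cm H z) (s + 1) rfl hz =
      R'.extMk ((i' s).hom ≫ cm H (z ≫ p s)) (s + 1) rfl hz' := by
  refine extMk_transfer R R' (fun n => (i' n).hom ≫ cm H (p n) ≫ (i n).inv) ?_ (fun n => ?_) _ hz
    _ ?_
  · have : ((i' 0).hom ≫ cm H (p 0) ≫ (i 0).inv) ≫ (i 0).hom ≫ cm H K.e =
        (i' 0).hom ≫ cm H K'.e := by
      rw [← p₀, cm_comp]
      simp only [Category.assoc, Iso.inv_hom_id_assoc]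
    exact (congrArg (_ ≫ ·) h.1).trans (this.trans h'.1.symm)
  · rw [← cancel_mono (i n).hom]
    simp only [Category.assoc, Iso.inv_hom_id, Category.comp_id]
    rw [h.2 n, Iso.inv_hom_id_assoc, ← Category.assoc (R'.complex.d _ _), h'.2 n, Category.assoc,
      ← cm_comp, ← cm_comp, hp]
  · rw [cm_comp]
    simp only [Category.assoc, Iso.inv_hom_id_assoc]

lemma IsRes.cls_iff {K : Cx T} {R : ProjectiveResolution (co H T.one)} {i} (h : IsRes K R i)
    {s : ℕ} {t : ℤ} (z : sph T t ⟶ K.Q s) (x : ExtA H s t) :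
    Cls H K z x ↔ ∃ hz, x = R.extMk ((i s).hom ≫ cm H z) (s + 1) rfl hz := by
  refine ⟨fun ⟨R', i', h₁, h₂, hz, hx⟩ => ?_, fun hx => ⟨R, i, h.1, h.2, hx⟩⟩
  obtain ⟨hz', e⟩ := IsRes.transfer (K := K) (R := R') (i := i') ⟨h₁, h₂⟩ h (fun _ => 𝟙 _)
    (Category.comp_id _) (fun _ => by simp) z hz
  simp only [Category.comp_id] at hz' e
  exact ⟨_, hx.trans e⟩

lemma IsRes.d_comp {K : Cx T} {R : ProjectiveResolution (co H T.one)} {i} (h : IsRes K R i)
    {s : ℕ} {Z : T.C} (z : Z ⟶ K.Q s) :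
    R.complex.d (s + 1) s ≫ (i s).hom ≫ cm H z = (i (s + 1)).hom ≫ cm H (z ≫ K.δ s) := by
  rw [← Category.assoc, h.2, Category.assoc, cm_comp]

theorem rowB2 : RowB2 := by
  intro T H hN K K' hF hE p p₀ hp s t z x ⟨R, i, h₁, h₂, hz, hx⟩
  obtain ⟨R', i', h'⟩ := exists_isRes hN K' hF hE
  obtain ⟨hz', e⟩ := IsRes.transfer (K := K) (R := R) (i := i) ⟨h₁, h₂⟩ h' p p₀ hp z hz
  exact (h'.cls_iff _ _).2 ⟨hz', hx.trans e⟩

theorem rowB1 : RowB1 := by
  intro T H hN hC K hF hE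
  obtain ⟨R, i, h⟩ := exists_isRes hN K hF hE
  have W : ∀ n, Wd H (K.Q n) := fun n => (hF n).wd.some
  have inj : ∀ s t (z : sph T t ⟶ K.Q s), (i s).hom ≫ cm H z = 0 ↔ z = 0 := fun s t z =>
    ⟨fun e => (W s).cm_eq_zero z (by rwa [← cancel_epi (i s).hom, comp_zero]),
      fun e => by rw [e, cm_zero, comp_zero]⟩
  have coc : ∀ s t (z : sph T t ⟶ K.Q s),
      R.complex.d (s + 1) s ≫ (i s).hom ≫ cm H z = 0 ↔ z ≫ K.δ s = 0 := fun s t z => by
    rw [h.d_comp, inj]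
  have sur : ∀ s t (f : R.complex.X s ⟶ co H (sph T t)), ∃ z, (i s).hom ≫ cm H z = f :=
    fun s t f => by
      obtain ⟨z, hz⟩ := (W s).cm_surj hN hC ((i s).inv ≫ f)
      exact ⟨z, by rw [hz, Iso.hom_inv_id_assoc]⟩
  refine ⟨hE.sq, fun s t z => ⟨fun ⟨x, hx⟩ => ?_, fun hz => ?_⟩, fun s t z x x' hx hx' => ?_,
    fun s t x => ?_, fun s t z z' x x' hx hx' => ?_, fun t z => ?_, fun s t z => ?_⟩
  · exact (coc s t z).1 ((h.cls_iff z x).1 hx).1
  · exact ⟨_, (h.cls_iff z _).2 ⟨(coc s t z).2 hz, rfl⟩⟩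
  · exact ((h.cls_iff z x).1 hx).2.trans ((h.cls_iff z x').1 hx').2.symm
  · obtain ⟨f, hf, rfl⟩ := R.extMk_surjective x (s + 1) rfl
    obtain ⟨z, rfl⟩ := sur s t f
    exact ⟨z, (h.cls_iff z _).2 ⟨hf, rfl⟩⟩
  · obtain ⟨hz, rfl⟩ := (h.cls_iff _ _).1 hx
    obtain ⟨hz', rfl⟩ := (h.cls_iff _ _).1 hx'
    rw [h.cls_iff, R.add_extMk]
    simp only [cm_add, Preadditive.comp_add]
    exact ⟨by rw [hz, hz', add_zero], trivial⟩
  · rw [h.cls_iff]
    refine ⟨fun ⟨hz, e⟩ => (inj 0 t z).1 ((extMk_zero_iff R _ hz).1 e.symm), fun e => ?_⟩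
    have e' := (inj 0 t z).2 e
    exact ⟨by rw [e', comp_zero], ((extMk_zero_iff R _ _).2 e').symm⟩
  · rw [h.cls_iff]
    constructor
    · rintro ⟨hz, e⟩
      obtain ⟨g, hg⟩ := (R.extMk_eq_zero_iff _ _ _ hz s rfl).1 e.symm
      obtain ⟨y, rfl⟩ := sur s t g
      refine ⟨y, ?_⟩
      rw [h.d_comp] at hg
      have := (inj (s + 1) t (y ≫ K.δ s + -z)).1 (by
        have e₁ := cm_add (H := H) z (-z)
        rw [add_neg_cancel, cm_zero] at e₁
        rw [cm_add, Preadditive.comp_add, hg, ← Preadditive.comp_add, ← e₁, comp_zero])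
      exact add_neg_eq_zero.1 this
    · rintro ⟨y, rfl⟩
      have hz := (coc (s + 1) t (y ≫ K.δ s)).2 (by rw [Category.assoc, hE.sq, comp_zero])
      exact ⟨hz, ((R.extMk_eq_zero_iff _ _ _ hz s rfl).2 ⟨_, h.d_comp y⟩).symm⟩

end Vale.Agent.Q236
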