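import Vale.Agent.Q236.Free

/-!
# P236, literal `Ext`: the Kuenneth theorem for `π_* (H ∧ H ∧ Y)` (row K1)
-/

open CategoryTheory MonoidalCategory MonObj Limits

namespace Vale.Agent.Q236

open Vale.Agent.P251.St Vale.Agent.P251.St.SHCat Vale.Agent.P236Z.St Vale.Agent.P236K.St

namespace Free

/-- the universal property of an internal direct sum -/
lemma exists_of_proj {J W M : Type} {A B : J → Type} [∀ j, AddCommGroup (A j)]
    [∀ j, AddCommGroup (B j)] [AddCommGroup W] [AddCommGroup M] (Φ : ∀ j, A j →+ W)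
    (hs : ∀ P : AddSubgroup W, (∀ j a, Φ j a ∈ P) → ∀ w, w ∈ P) (Q : ∀ j, W →+ B j)
    (hQ : ∀ j a, Q j (Φ j a) = 0 → a = 0) (hQ' : ∀ i j, i ≠ j → ∀ a, Q j (Φ i a) = 0)
    (β : ∀ j, A j →+ M) : ∃ φ : W →+ M, ∀ j a, φ (Φ j a) = β j a := by
  classical
  have h : ∀ j u, Q j (DirectSum.toAddMonoid Φ u) = Q j (Φ j (u j)) := fun j u => by
    induction u using DirectSum.induction_on with
    | zero => simp
    | of i a =>
      rw [DirectSum.toAddMonoid_of]
      by_cases hij : i = j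
      · subst hij
        rw [DirectSum.of_eq_same]
      · rw [DirectSum.of_eq_of_ne _ _ _ (Ne.symm hij), hQ' i j hij, map_zero, map_zero]
    | add u v hu hv => rw [map_add, map_add, hu, hv, DirectSum.add_apply, map_add, map_add]
  have hb : Function.Bijective (DirectSum.toAddMonoid Φ) :=
    ⟨(injective_iff_map_eq_zero _).2 fun u hu => DirectSum.ext fun j =>
      hQ j _ (by rw [← h, hu, map_zero]),
    hs (DirectSum.toAddMonoid Φ).range fun j a => ⟨_, DirectSum.toAddMonoid_of Φ j a⟩⟩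
  refine ⟨(DirectSum.toAddMonoid β).comp (AddEquiv.ofBijective _ hb).symm.toAddMonoidHom,
    fun j a => ?_⟩
  have h1 : (AddEquiv.ofBijective _ hb).symm (Φ j a) = DirectSum.of A j a :=
    (AddEquiv.symm_apply_eq _).2 (DirectSum.toAddMonoid_of Φ j a).symm
  change DirectSum.toAddMonoid β ((AddEquiv.ofBijective _ hb).symm (Φ j a)) = _
  rw [h1, DirectSum.toAddMonoid_of]

variable {T : SHCat} {H : T.C}

/-- smashing with a sphere is an equivalence -/
lemma isEquivalence_sph (n : ℤ) : (tensorRight (sph T n)).IsEquivalence := by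
  have e : ∀ a b : ℤ, a + b = 0 → (sph T a ⊗ sph T b ≅ 𝟙_ T.C) := fun a b h =>
    P251.M.tensorUnitShiftIso _ _ ≪≫ (shiftFunctorCompIsoId T.C a b h).app _
  exact Functor.IsEquivalence.mk' (tensorRight (sph T (-n)))
    ((rightUnitorNatIso _).symm ≪≫ (tensoringRight _).mapIso (e n (-n) (by ring)).symm ≪≫
      tensorRightTensor _ _)
    ((tensorRightTensor _ _).symm ≪≫ (tensoringRight _).mapIso (e (-n) n (by ring)) ≪≫
      rightUnitorNatIso _)

variable [MonObj H]

lemma br_eq {P Q Y : T.C} (a : P ⟶ H ⊗ H) (z : Q ⟶ H ⊗ Y) :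
    br a z = a ▷ Q ≫ (α_ H H Q).hom ≫ H ◁ ext z := by
  simp only [br, ext, act, tensorHom_def, Category.assoc, whiskerLeft_comp, id_whiskerRight,
    whiskerLeft_id, Category.id_comp, Category.comp_id, associator_naturality_right_assoc]

lemma ext_add {X Y : T.C} (x y : X ⟶ H ⊗ Y) : ext (x + y) = ext x + ext y := by
  rw [ext, MonoidalPreadditive.whiskerLeft_add, Preadditive.add_comp]; rfl

/-- the basis theorem, indexed along `m ↦ t - m` -/
lemma exists_basis_sub (hH : IsHF 3 η[H]) (Y : T.C) (t : ℤ) :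
    ∃ (J : ℤ → Type) (x : ∀ m, J m → (sph T (t - m) ⟶ H ⊗ Y)),
      IsIso (Sigma.desc fun j : Σ m, J m => ext (x j.1 j.2)) ∧
      ∀ m (P : AddSubgroup (sph T (t - m) ⟶ H ⊗ Y)), (∀ j, x m j ∈ P) → ∀ v, v ∈ P := by
  obtain ⟨J, x, hx, -, -, hspan⟩ := exists_basis hH Y
  refine ⟨fun m => J (t - m), fun m => x (t - m), ?_, fun m => hspan (t - m)⟩
  let ε : (Σ m, J (t - m)) ≃ Σ k, J k := Equiv.sigmaCongrLeft (Equiv.subLeft t)
  have h : (Sigma.desc fun j : Σ m, J (t - m) => ext (x (t - j.1) j.2)) =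
      (Sigma.reindex ε fun j : Σ k, J k => H ⊗ sph T j.1).hom ≫
        Sigma.desc fun j : Σ k, J k => ext (x j.1 j.2) :=
    Sigma.hom_ext _ _ fun j => (Sigma.ι_desc _ _).trans
      ((Sigma.ι_desc (fun j : Σ k, J k => ext (x j.1 j.2)) (ε j)).symm.trans
        (Sigma.ι_reindex_hom_assoc ε (fun j : Σ k, J k => H ⊗ sph T j.1) j _).symm)
  rw [h]
  exact IsIso.comp_isIso' (Iso.isIso_hom _) hx

end Free

theorem rowK1 : RowK1 := by
  intro T H _ hH t
  refine ⟨⟨fun m => (shiftFunctorAdd' T.C m (t - m) t (by ring)).app _ ≪≫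
    (P251.M.tensorUnitShiftIso _ _).symm⟩, fun c Y M _ β => ?_⟩
  classical
  obtain ⟨J, x, hx, hspan⟩ := Free.exists_basis_sub hH Y t
  let X : (Σ m, J m) → T.C := fun j => H ⊗ sph T (t - j.1)
  let D : ∐ X ⟶ H ⊗ Y := Sigma.desc fun j : Σ m, J m => Free.ext (x j.1 j.2)
  let Φ : ∀ j : Σ m, J m, (sph T j.1 ⟶ H ⊗ H) →+ (sph T t ⟶ H ⊗ H ⊗ Y) := fun j =>
    AddMonoidHom.mk' (fun a => (c j.1).hom ≫ br a (x j.1 j.2)) fun a b => by
      rw [Free.br_eq, Free.br_eq, Free.br_eq, MonoidalPreadditive.add_whiskerRight,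
        Preadditive.add_comp, Preadditive.comp_add]
  have hΦ : ∀ j a, Φ j a =
      (c j.1).hom ≫ a ▷ _ ≫ (α_ H H _).hom ≫ H ◁ Free.ext (x j.1 j.2) := fun j a => by
    rw [← Free.br_eq]; rfl
  have hs : ∀ P : AddSubgroup (sph T t ⟶ H ⊗ H ⊗ Y), (∀ j a, Φ j a ∈ P) → ∀ w, w ∈ P := by
    intro P hP w
    obtain ⟨s, g, hg⟩ := P251.S.compact_sumL H X (P251.S.isSphere_one_shift t) (w ≫ H ◁ inv D)
    have h : w = (w ≫ H ◁ inv D) ≫ H ◁ D := by simp
    rw [h, hg, Preadditive.sum_comp]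
    refine P.sum_mem fun j _ => ?_
    have := Free.isEquivalence_sph (T := T) (t - j.1)
    obtain ⟨a, ha⟩ := (tensorRight (sph T (t - j.1))).map_surjective
      ((c j.1).inv ≫ g j ≫ (α_ H H _).inv)
    have h1 : Φ j a = (g j ≫ H ◁ Sigma.ι X j) ≫ H ◁ D := by
      rw [hΦ, show a ▷ _ = _ from ha, Category.assoc, Category.assoc, Category.assoc,
        Iso.hom_inv_id_assoc, Iso.inv_hom_id_assoc, ← whiskerLeft_comp, Sigma.ι_desc]
    exact h1 ▸ hP j a
  let p : ∀ j, H ⊗ Y ⟶ X j := fun j =>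
    inv D ≫ Sigma.desc fun i => if h : i = j then eqToHom (by rw [h]) else 0
  have hp : ∀ i j, Free.ext (x i.1 i.2) ≫ p j =
      if h : i = j then eqToHom (by rw [h]) else 0 := fun i j => by
    rw [← Sigma.ι_desc (fun j : Σ m, J m => Free.ext (x j.1 j.2)) i, Category.assoc,
      IsIso.hom_inv_id_assoc, Sigma.ι_desc]
  obtain ⟨φ, hφ⟩ := Free.exists_of_proj Φ hs (fun j => Preadditive.rightComp _ (H ◁ p j))
    (fun j a h => by
      have := Free.isEquivalence_sph (T := T) (t - j.1)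
      change Φ j a ≫ H ◁ p j = 0 at h
      rw [hΦ, Category.assoc, Category.assoc, Category.assoc, ← whiskerLeft_comp, hp, dif_pos rfl,
        eqToHom_refl, whiskerLeft_id, Category.comp_id, Preadditive.IsIso.comp_left_eq_zero,
        Preadditive.IsIso.comp_right_eq_zero] at h
      exact (tensorRight (sph T (t - j.1))).map_injective
        (h.trans (MonoidalPreadditive.zero_whiskerRight).symm))
    (fun i j hij a => by
      change Φ i a ≫ H ◁ p j = 0
      rw [hΦ, Category.assoc, Category.assoc, Category.assoc, ← whiskerLeft_comp, hp, dif_neg hij,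
        MonoidalPreadditive.whiskerLeft_zero, comp_zero, comp_zero, comp_zero])
    fun j => (β j.1).flip (x j.1 j.2)
  have h : ∀ m a z, φ ((c m).hom ≫ br a z) = β m a z := fun m a =>
    hspan m ((φ.comp (AddMonoidHom.mk' (fun z => (c m).hom ≫ br a z) fun y z => by
      rw [Free.br_eq, Free.br_eq, Free.br_eq, Free.ext_add, MonoidalPreadditive.whiskerLeft_add,
        Preadditive.comp_add, Preadditive.comp_add, Preadditive.comp_add])).eqLocus (β m a))
      fun b => hφ ⟨m, b⟩ a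
  exact ⟨φ, h, fun φ' h' => AddMonoidHom.ext
    (hs (φ'.eqLocus φ) fun j a => (h' _ _ _).trans (h _ _ _).symm)⟩

end Vale.Agent.Q236
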