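import Vale.Agent.Q236.Add
import Vale.Agent.P236Z.Top.St

/-!
# P236, statement layer: the Steenrod algebra, its `Ext` groups, and the two complexes computing them

`H` is the mod three Eilenberg-Mac Lane spectrum and `G k = Σ^k H`.  The Steenrod algebra is the
graded ring of stable operations `A^n = [H, Σ^n H]`, seen as the preadditive category
`InducedCategory B G` with objects `k ∈ ℤ` and morphisms `[Σ^k H, Σ^l H] = A^(l - k)`; graded left
`A`-modules are the additive functors on this category.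
-/

open CategoryTheory MonoidalCategory MonObj Opposite

namespace Vale.Agent.R236

/-- The relation `c` identifies the cohomology of the complex `(C, d)` with `E`. -/
structure Cmp {C : ℕ → AddCommGrpCat.{0}} (d : ∀ n, C n → C (n + 1)) (E : ℕ → AddCommGrpCat.{1})
    (c : ∀ s, C s → E s → Prop) : Prop where
  cls : ∀ s z, (∃ x, c s z x) ↔ d s z = 0
  uniq : ∀ s z x x', c s z x → c s z x' → x = x'
  surj : ∀ s x, ∃ z, c s z x
  add : ∀ s z z' x x', c s z x → c s z' x' → c s (z + z') (x + x')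
  ker₀ : ∀ z, c 0 z 0 ↔ z = 0
  ker : ∀ s z, c (s + 1) z 0 ↔ ∃ y, d s y = z

/-- `A` is finite and `p` identifies `D` with the group of homomorphisms `A ⟶ F`. -/
def IsDual (A F : AddCommGrpCat.{0}) {D : Type} (p : A → D → F) : Prop :=
  Finite A ∧ ∀ φ : A →+ F, ∃! α, ∀ a, φ a = p a α

/-- `p` presents `C` as the direct sum of the tensor products `A m ⊗ D m` (universal property). -/
def IsSum (A D : ℤ → AddCommGrpCat.{0}) (C : AddCommGrpCat.{0}) (p : ∀ m, A m → D m → C) : Prop :=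
  ∀ (M : AddCommGrpCat.{0}) (β : ∀ m, A m →+ D m →+ M), ∃! φ : C →+ M, ∀ m a z, φ (p m a z) = β m a z

/-- a linear combination -/
def lin (A : AddCommGrpCat.{0}) (f : A) (c : ℤ) (g : A) : A := f + c • g

/-- the order of an element -/
noncomputable def ord (A : AddCommGrpCat) (x : A) : ℕ := addOrderOf x

section

variable {B : Type 1} [Category.{0} B]

/-- `F` turns `S ⟶ W 0 ⟶ W 1 ⟶ ⋯` into a projective resolution of `F S`, and the last argument is
the class in `Ext` of the cocycle `F (W s) ⟶ F P` induced by `z`. -/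
inductive IsCls {A : Type 1} [Category.{0} A] [Abelian A] [HasExt.{1} A] (F : Bᵒᵖ ⥤ A) {S P : B}
    {W : ℕ → B} (u : S ⟶ W 0) (v : ∀ n, W n ⟶ W (n + 1)) (s : ℕ) (z : P ⟶ W s) :
    Abelian.Ext (F.obj (op S)) (F.obj (op P)) s → Prop
  | mk (R : ProjectiveResolution (F.obj (op S))) (i : ∀ n, R.complex.X n ≅ F.obj (op (W n)))
      (_ : R.π.f 0 = (i 0).hom ≫ F.map u.op)
      (_ : ∀ n, R.complex.d (n + 1) n ≫ (i n).hom = (i (n + 1)).hom ≫ F.map (v n).op) (h) :
      IsCls F u v s z (R.extMk ((i s).hom ≫ F.map z.op) (s + 1) rfl h)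

/-- A sequence `S ⟶ Q 0 ⟶ Q 1 ⟶ ⋯`. -/
structure Cx (S : B) where
  /-- the terms -/
  Q : ℕ → B
  /-- the augmentation -/
  ε : S ⟶ Q 0
  /-- the differentials -/
  δ : ∀ n, Q n ⟶ Q (n + 1)

/-- the iterates of a functor -/
def itr (F : B ⥤ B) (n : ℕ) : B ⥤ B := Nat.rec (𝟭 B) (fun _ G => F ⋙ G) n

variable [Preadditive B]

/-- the abelian group of maps -/
def grp (X Y : B) : AddCommGrpCat.{0} := .of (X ⟶ Y)

section

variable (G : ℤ → B) {S : B}

/-- graded modules form an abelian category (the instance of Mathlib for full subcategories) -/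
noncomputable instance ab : Abelian (AdditiveFunctor (InducedCategory B G) AddCommGrpCat.{0}) :=
  inferInstance

instance hasExt : HasExt.{1} (AdditiveFunctor (InducedCategory B G) AddCommGrpCat.{0}) :=
  HasExt.standard _

/-- Cohomology `Y ↦ (k ↦ [Y, G k])` as a graded module. -/
noncomputable def coh : Bᵒᵖ ⥤ AdditiveFunctor (InducedCategory B G) AddCommGrpCat.{0} :=
  ObjectProperty.lift _
    (preadditiveCoyoneda ⋙ (Functor.whiskeringLeft _ _ _).obj (inducedFunctor G)) fun Y =>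
      inferInstanceAs (inducedFunctor G ⋙ preadditiveCoyoneda.obj Y).Additive

/-- `Ext_A^s (H^* S, H^* P)` -/
noncomputable def ExtA (S P : B) (s : ℕ) : AddCommGrpCat.{1} :=
  .of (Abelian.Ext ((coh G).obj (op S)) ((coh G).obj (op P)) s)

/-- the class in `Ext` of a cocycle of `[P, K]` -/
def Cls (K : Cx S) {P : B} (s : ℕ) : grp P (K.Q s) → ExtA G S P s → Prop :=
  IsCls (coh G) K.ε K.δ s

/-- `Cls` identifies the cohomology of `[P, K]` with `Ext`. -/
def Computes (K : Cx S) (P : B) : Prop :=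
  Cmp (fun s (z : P ⟶ K.Q s) => z ≫ K.δ s) (ExtA G S P) (Cls G K)

end

variable [MonoidalCategory B] (H : B) [MonObj H]

/-- The cobar complex of the dual Steenrod algebra `π_* (H ∧ H)`: the terms are `H`, `H ∧ H`, … and
the differential is the alternating sum of the maps which insert the unit. -/
def cobar : Cx (𝟙_ B) :=
  let Q : ℕ → B := Nat.rec H fun _ Y => H ⊗ Y
  ⟨Q, η[H], Nat.rec (lin (grp H (H ⊗ H)) ((λ_ H).inv ≫ η ▷ H) (-1) ((ρ_ H).inv ≫ H ◁ η))
    fun n v => let Y := Q (n + 1); lin (grp Y (H ⊗ Y)) ((λ_ Y).inv ≫ η ▷ Y) (-1) (H ◁ v :)⟩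

/-- `[P, H ∧ H]` is finite and `[H, H ∧ P]` is its dual (values in `[P, H ∧ P]`). -/
def Dual (P : B) : Prop :=
  IsDual (grp P (H ⊗ H)) (grp P (H ⊗ P)) fun (a : P ⟶ H ⊗ H) (α : H ⟶ H ⊗ P) =>
    a ≫ H ◁ α ≫ (α_ H H P).inv ≫ μ ▷ P

variable {H}

omit [Preadditive B] in
/-- the product `[a | z]` in `H ∧ H ∧ Y` of `a` in `H ∧ H` and `z` in `H ∧ Y` -/
def br {P W Y : B} (a : P ⟶ H ⊗ H) (z : W ⟶ H ⊗ Y) : P ⊗ W ⟶ H ⊗ H ⊗ Y :=
  (a ⊗ₘ z) ≫ (α_ H H (H ⊗ Y)).hom ≫ H ◁ ((α_ H H Y).inv ≫ μ ▷ Y)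

variable (H) in
/-- The products `[a | z]` identify `π_t (H ∧ H ∧ Y)` with the direct sum of the tensor products
`π_m (H ∧ H) ⊗ π_(t - m) (H ∧ Y)` (universal property); `S m` is the sphere of dimension `m`. -/
def Kun (S : ℤ → B) (t : ℤ) : Prop :=
  Nonempty (∀ m, S t ≅ S m ⊗ S (t - m)) ∧
    ∀ (c : ∀ m, S t ≅ S m ⊗ S (t - m)) (Y : B), IsSum (fun m => grp (S m) (H ⊗ H))
      (fun m => grp (S (t - m)) (H ⊗ Y)) (grp (S t) (H ⊗ H ⊗ Y)) fun m a z => (c m).hom ≫ br a z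

/-- The cobar cochain `[a | a ^ 2] + [a ^ 2 | a]`. -/
noncomputable def bj [BraidedCategory B] {P : B} (a : P ⟶ H ⊗ H) : P ⊗ P ⊗ P ⟶ H ⊗ H ⊗ H :=
  let b := (a ⊗ₘ a) ≫ μ
  lin (grp _ _) (br a b) 1 ((α_ P P P).inv ≫ br b a)

end

open P251.St P251.St.SHCat P236Z.St

variable {T : SHCat}

/-- the suspensions of `H` -/
abbrev Sh (H : T.C) (k : ℤ) : T.C := H⟦k⟧

/-- `S^4`, `S^4 ∧ S^4 ∧ S^4`, … : `bigS T j` is a sphere of dimension `4 * 3 ^ j`. -/
def bigS (T : SHCat) : ℕ → T.C := Nat.rec (sph T 4) fun _ Y => ten Y (ten Y Y)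

/-- the power `x ^ (3 ^ j)` of a class `x ∈ π_4 R` of a ring spectrum `R` -/
def frob {R : T.C} [MonObj R] (x : Hom (sph T 4) R) : ∀ j, Hom (bigS T j) R :=
  Nat.rec x fun _ y => (comp (tenHom y (tenHom y y)) (comp (tenHom (ident R) μ[R]) μ[R]) :)

variable {H : T.C} {u : Hom T.one H} (A : AdamsTower u)

/-- The complex `(E_1, d_1)` of the Adams tower: `E_1^{s,t} = π_t Σ^s (H ∧ X s)`. -/
def adams : Cx T.one :=
  let U := shiftFunctor T.C (1 : ℤ)
  ⟨fun n => (itr U n).obj (ten H (A.X n)), comp A.base.inv (hur u (A.X 0)),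
    fun n => (itr U n).map (comp (A.d n) (U.map (hur u (A.X (n + 1)))))⟩

/-- `z ∈ π_n (H ∧ X 2)` represents the class `x ∈ Ext^2 = E_2^2` (the identification `c` of
spheres is unique up to sign). -/
def Rep {n : ℤ} {P : T.C} (z : Hom (sph T n) (ten H (A.X 2))) (x : ExtA (Sh H) T.one P 2) : Prop :=
  ∃ c : P ≅ sus (sus (sph T n)),
    Cls (Sh H) (adams A) 2 (comp c.hom ((itr (shiftFunctor T.C (1 : ℤ)) 2).map z)) x

/-- `θ ∈ π_n S` is detected by `z ∈ E_1^2`: it has Adams filtration exactly two and its image in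
`E_∞^2` is a nonzero multiple of the class of `z`. -/
def Detects {n : ℤ} (z : Hom (sph T n) (ten H (A.X 2))) (θ : Hom (sph T n) T.one) : Prop :=
  ¬ A.FiltGe 3 θ ∧ ∃ (w : Hom (sph T n) (A.X 2)) (c : ℤ), ¬ (3 : ℤ) ∣ c ∧
    comp w (A.toSphere 2) = θ ∧ A.IsBoundary 2 (lin (grp _ _) (comp w (hur u (A.X 2))) c z)

end Vale.Agent.R236
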